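import Vale.Agent.P120.H982.Cheb

section

/-!
Doubly truncated smooth Riesz kernels and the basic comparison estimates.
-/

open MeasureTheory Metric Set Filter Topology
open scoped ENNReal NNReal

namespace Vale.Agent.P120.MX

variable {n d : ℕ}

/-- the kernel regularised at scale `e` and cut off at scale `l` -/
noncomputable def kk (n : ℕ) (e l : ℝ) (u : Eu d) : Eu d := cut 0 l u • rK n e u

/-- the smooth double truncation of the Riesz transform of `ν` -/
noncomputable def GG (n : ℕ) (ν : Measure (Eu d)) (e l : ℝ) (x : Eu d) : Eu d :=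
  ∫ w, kk n e l (x - w) ∂ν

/-- the sharp double truncation of the Riesz transform of `ν` -/
noncomputable def Tr (n : ℕ) (ν : Measure (Eu d)) (e l : ℝ) (x : Eu d) : Eu d :=
  ∫ w in closedBall x l, tK n e (x - w) ∂ν

theorem norm_le_of_enorm {v : Eu d} {K : ℝ} (hK : 0 ≤ K) (h : ‖v‖ₑ ≤ ENNReal.ofReal K) :
    ‖v‖ ≤ K := by
  rw [← ofReal_norm] at h
  exact (ENNReal.ofReal_le_ofReal_iff hK).1 h

theorem enorm_le_of_norm {v : Eu d} {K : ℝ} (h : ‖v‖ ≤ K) : ‖v‖ₑ ≤ ENNReal.ofReal K := by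
  rw [← ofReal_norm]
  exact ENNReal.ofReal_le_ofReal h

theorem cut_neg (l : ℝ) (u : Eu d) : cut 0 l (-u) = cut 0 l u := by
  simp only [cut, dist_zero_right, norm_neg]

theorem kk_neg (e l : ℝ) (u : Eu d) : kk n e l (-u) = - kk n e l u := by
  simp only [kk, cut_neg, rK_neg, smul_neg]

theorem continuous_kk {e : ℝ} (he : 0 < e) (l : ℝ) : Continuous (kk (d := d) n e l) :=
  (icut_cont 0 l).smul (continuous_rK n e he)

theorem norm_kk_le_rK (e l : ℝ) (u : Eu d) : ‖kk n e l u‖ ≤ ‖rK n e u‖ := by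
  rw [kk, norm_smul, Real.norm_of_nonneg (cut_nonneg_ta _ _ _)]
  exact mul_le_of_le_one_left (norm_nonneg _) (cut_le_one_ta _ _ _)

theorem norm_kk_le (e l : ℝ) (u : Eu d) : ‖kk n e l u‖ ≤ (‖u‖ ^ n)⁻¹ :=
  (norm_kk_le_rK e l u).trans (norm_rK_le n e u)

theorem norm_kk_le_e {e : ℝ} (he : 0 < e) (l : ℝ) (u : Eu d) : ‖kk n e l u‖ ≤ (e ^ n)⁻¹ :=
  (norm_kk_le_rK e l u).trans (norm_rK_le_e n e he u)

theorem kk_zero (e : ℝ) {l : ℝ} (hl : 0 < l) {u : Eu d} (hu : 2 * l ≤ ‖u‖) : kk n e l u = 0 := by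
  rw [kk, cut_eq_zero_ta 0 hl (by rwa [dist_zero_right]), zero_smul]

theorem kk_sub_le (n : ℕ) : ∃ K : ℝ, 0 < K ∧ ∀ (d : ℕ) (e l : ℝ), 0 < l → ∀ u u' : Eu d,
    ‖u - u'‖ ≤ ‖u‖ / 2 → u ≠ 0 →
      ‖kk n e l u - kk n e l u'‖ ≤ K * ‖u - u'‖ * (‖u‖ ^ (n + 1))⁻¹ := by
  obtain ⟨K, hK, H⟩ := rK_sub_le n
  refine ⟨4 + K, by positivity, fun d e l hl u u' h hu => ?_⟩
  have hu0 : 0 < ‖u‖ := norm_pos_iff.2 hu
  have key : kk n e l u - kk n e l u' =
      (cut 0 l u - cut 0 l u') • rK n e u + cut 0 l u' • (rK n e u - rK n e u') := by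
    simp only [kk, sub_smul, smul_sub]; abel
  have h2 : ‖cut 0 l u' • (rK n e u - rK n e u')‖ ≤ K * ‖u - u'‖ * (‖u‖ ^ (n + 1))⁻¹ := by
    rw [norm_smul, Real.norm_of_nonneg (cut_nonneg_ta _ _ _)]
    exact (mul_le_of_le_one_left (norm_nonneg _) (cut_le_one_ta _ _ _)).trans (H d e u u' h hu)
  have h1 : ‖(cut 0 l u - cut 0 l u') • rK n e u‖ ≤ 4 * ‖u - u'‖ * (‖u‖ ^ (n + 1))⁻¹ := by
    by_cases hb : 4 * l ≤ ‖u‖
    · have h3 : 2 * l ≤ ‖u'‖ := by
        have := norm_sub_norm_le u u'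
        linarith
      rw [cut_eq_zero_ta 0 hl (by rw [dist_zero_right]; linarith),
        cut_eq_zero_ta 0 hl (by rwa [dist_zero_right]), sub_self, zero_smul, norm_zero]
      positivity
    · push Not at hb
      have h3 := TruncAux.cut_lip (0 : Eu d) hl u u'
      rw [dist_eq_norm] at h3
      have h4 : 1 / l ≤ 4 * ‖u‖⁻¹ := by
        rw [← div_eq_mul_inv, div_le_div_iff₀ hl hu0]
        linarith
      rw [norm_smul, Real.norm_eq_abs]
      calc |cut 0 l u - cut 0 l u'| * ‖rK n e u‖ ≤ (4 * ‖u‖⁻¹ * ‖u - u'‖) * (‖u‖ ^ n)⁻¹ := by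
            apply mul_le_mul _ (norm_rK_le n e u) (norm_nonneg _) (by positivity)
            exact h3.trans (mul_le_mul_of_nonneg_right h4 (norm_nonneg _))
        _ = 4 * ‖u - u'‖ * (‖u‖ ^ (n + 1))⁻¹ := by
            rw [pow_succ]; field_simp
  rw [key]
  refine (norm_add_le _ _).trans ?_
  linarith

theorem hcs_kk (e : ℝ) {l : ℝ} (hl : 0 < l) (x : Eu d) :
    HasCompactSupport fun w => kk n e l (x - w) := by
  refine HasCompactSupport.intro (isCompact_closedBall x (2 * l)) fun w hw => ?_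
  apply kk_zero e hl
  rw [mem_closedBall, not_le, dist_comm, dist_eq_norm] at hw
  exact hw.le

theorem continuous_kk_sub {e : ℝ} (he : 0 < e) (l : ℝ) (x : Eu d) :
    Continuous fun w => kk n e l (x - w) :=
  (continuous_kk he l).comp (by fun_prop)

theorem integrable_kk {ν : Measure (Eu d)} [IsLocallyFiniteMeasure ν] {e l : ℝ} (he : 0 < e)
    (hl : 0 < l) (x : Eu d) : Integrable (fun w => kk n e l (x - w)) ν :=
  (continuous_kk_sub he l x).integrable_of_hasCompactSupport (hcs_kk e hl x)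

theorem continuous_GG {ν : Measure (Eu d)} [IsLocallyFiniteMeasure ν] {e l : ℝ} (he : 0 < e)
    (hl : 0 < l) : Continuous (GG n ν e l) := by
  rw [continuous_iff_continuousAt]
  intro x₀
  unfold GG
  apply continuousAt_of_dominated
    (bound := (closedBall x₀ (2 * l + 1)).indicator fun _ => (e ^ n)⁻¹)
  · exact Eventually.of_forall fun x => (continuous_kk_sub he l x).aestronglyMeasurable
  · filter_upwards [ball_mem_nhds x₀ one_pos] with x hx
    refine Eventually.of_forall fun w => ?_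
    by_cases hw : w ∈ closedBall x₀ (2 * l + 1)
    · rw [indicator_of_mem hw]; exact norm_kk_le_e he l _
    · rw [indicator_of_notMem hw, kk_zero e hl, norm_zero]
      rw [mem_closedBall, not_le] at hw
      rw [mem_ball] at hx
      have := dist_triangle_left w x₀ x
      rw [← dist_eq_norm]
      linarith
  · exact (integrableOn_const (measure_closedBall_lt_top.ne)).integrable_indicator
      measurableSet_closedBall
  · refine Eventually.of_forall fun w => ?_
    exact ((continuous_kk he l).comp (show Continuous fun x : Eu d => x - w by fun_prop)).continuousAt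

/-- integral of a bounded function vanishing off a ball -/
theorem enorm_integral_le_ball {ν : Measure (Eu d)} {C : ℝ} (hν : UpReg n C ν)
    {f : Eu d → Eu d} {x : Eu d} {R B : ℝ} (hR : 0 < R) (hB : 0 ≤ B)
    (hf : ∀ᵐ w ∂ν, ‖f w‖ ≤ (closedBall x R).indicator (fun _ => B) w) :
    ∫⁻ w, ‖f w‖ₑ ∂ν ≤ ENNReal.ofReal (B * (C * R ^ n)) := by
  have h1 : ∀ᵐ w ∂ν, ‖f w‖ₑ ≤ (closedBall x R).indicator (fun _ => ENNReal.ofReal B) w := by
    filter_upwards [hf] with w hw
    by_cases h : w ∈ closedBall x R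
    · rw [indicator_of_mem h] at hw ⊢; exact enorm_le_of_norm hw
    · rw [indicator_of_notMem h] at hw ⊢
      rw [norm_le_zero_iff.1 hw, enorm_zero]
  refine (lintegral_mono_ae h1).trans ?_
  rw [lintegral_indicator measurableSet_closedBall, setLIntegral_const, ENNReal.ofReal_mul hB]
  exact mul_le_mul_right (hν x R hR) _

theorem GG_big {ν : Measure (Eu d)} {C : ℝ} (hC : 0 < C) (hν : UpReg n C ν) {e l : ℝ}
    (hl : 0 < l) (hle : l ≤ e) (x : Eu d) : ‖GG n ν e l x‖ ≤ C * 2 ^ n := by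
  have he : 0 < e := lt_of_lt_of_le hl hle
  apply norm_le_of_enorm (by positivity)
  refine (enorm_integral_le_lintegral_enorm _).trans ?_
  refine (enorm_integral_le_ball hν (x := x) (R := 2 * l) (B := (l ^ n)⁻¹) (by positivity)
    (by positivity) (Eventually.of_forall fun w => ?_)).trans (le_of_eq ?_)
  · by_cases hw : w ∈ closedBall x (2 * l)
    · rw [indicator_of_mem hw]
      refine (norm_kk_le_e he l _).trans ?_
      exact inv_anti₀ (by positivity) (pow_le_pow_left₀ hl.le hle n)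
    · rw [indicator_of_notMem hw, kk_zero e hl, norm_zero]
      rw [mem_closedBall, not_le, dist_comm, dist_eq_norm] at hw
      exact hw.le
  · congr 1
    rw [mul_pow]; field_simp

theorem norm_tK_le' (e : ℝ) (u : Eu d) : ‖tK n e u‖ ≤ (‖u‖ ^ n)⁻¹ := by
  by_cases hz : e < ‖u‖
  · rw [tK, indicator_of_mem (show u ∈ {z : Eu d | e < ‖z‖} from hz), ← rK_zero_eq]
    exact norm_rK_le n 0 u
  · rw [tK, indicator_of_notMem (show u ∉ {z : Eu d | e < ‖z‖} from hz), norm_zero]
    positivity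

theorem intOn_tK {ν : Measure (Eu d)} {e : ℝ} (he : 0 < e) {s : Set (Eu d)} (hs : ν s ≠ ⊤)
    (x : Eu d) : IntegrableOn (fun w => tK n e (x - w)) s ν :=
  TT.intOn_kernel (measurable_tK n e) (norm_tK_le n e he) hs x

/-- smooth and sharp truncations differ by a bounded amount -/
theorem G_sub_T (n : ℕ) (hn : 1 ≤ n) (C : ℝ) (hC : 0 < C) : ∃ K : ℝ, 0 < K ∧
    ∀ (d : ℕ) (ν : Measure (Eu d)), UpReg n C ν → ∀ (x : Eu d) (e l : ℝ), 0 < e → 0 < l →
      ‖GG n ν e l x - Tr n ν e l x‖ ≤ K := by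
  obtain ⟨K₁, hK₁, hdiff⟩ := lintegral_diff_le n hn C hC
  refine ⟨K₁ + C * 2 ^ n, by positivity, fun d ν hν x e l he hl => ?_⟩
  have hlf := hν.isLocallyFiniteMeasure
  have i1 := integrable_kk (n := n) (ν := ν) he hl x
  have i2 : Integrable ((closedBall x l).indicator fun w => tK n e (x - w)) ν :=
    (intOn_tK he measure_closedBall_lt_top.ne x).integrable_indicator measurableSet_closedBall
  unfold GG Tr
  rw [← integral_indicator measurableSet_closedBall, ← integral_sub i1 i2]
  apply norm_le_of_enorm (by positivity)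
  refine (enorm_integral_le_lintegral_enorm _).trans ?_
  set f : Eu d → Eu d := fun w => cut 0 l (x - w) • tK n e (x - w) -
    (closedBall x l).indicator (fun w => tK n e (x - w)) w with hf
  have hpt : ∀ w, ‖kk n e l (x - w) - (closedBall x l).indicator (fun w => tK n e (x - w)) w‖ₑ ≤
      ‖rK n e (x - w) - tK n e (x - w)‖ₑ + ‖f w‖ₑ := by
    intro w
    have h1 : kk n e l (x - w) - (closedBall x l).indicator (fun w => tK n e (x - w)) w =
        cut 0 l (x - w) • (rK n e (x - w) - tK n e (x - w)) + f w := by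
      simp only [hf, kk, smul_sub]; abel
    rw [h1]
    refine (enorm_add_le _ _).trans (add_le_add_left ?_ _)
    rw [← ofReal_norm, ← ofReal_norm]
    apply ENNReal.ofReal_le_ofReal
    rw [norm_smul, Real.norm_of_nonneg (cut_nonneg_ta _ _ _)]
    exact mul_le_of_le_one_left (norm_nonneg _) (cut_le_one_ta _ _ _)
  refine (lintegral_mono hpt).trans ?_
  have hm : Measurable fun w => ‖rK n e (x - w) - tK n e (x - w)‖ₑ :=
    (((measurable_rK n e).sub (measurable_tK n e)).comp
      (measurable_const.sub measurable_id)).enorm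
  rw [lintegral_add_left hm, ENNReal.ofReal_add hK₁.le (by positivity)]
  refine add_le_add (hdiff d ν hν x e he) ?_
  refine (enorm_integral_le_ball hν (x := x) (R := 2 * l) (B := (l ^ n)⁻¹) (by positivity)
    (by positivity) (Eventually.of_forall fun w => ?_)).trans (le_of_eq ?_)
  · by_cases hw1 : w ∈ closedBall x l
    · have h2 : cut 0 l (x - w) = 1 := by
        apply cut_eq_one_ta hl
        rwa [dist_zero_right, ← dist_eq_norm, dist_comm]
      have h3 : f w = 0 := by
        simp only [hf, h2, one_smul, indicator_of_mem hw1, sub_self]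
      rw [h3, norm_zero]
      exact indicator_nonneg (fun _ _ => by positivity) _
    · have h3 : f w = cut 0 l (x - w) • tK n e (x - w) := by
        simp only [hf, indicator_of_notMem hw1, sub_zero]
      rw [h3]
      rw [mem_closedBall, not_le, dist_comm, dist_eq_norm] at hw1
      by_cases hw : w ∈ closedBall x (2 * l)
      · rw [indicator_of_mem hw, norm_smul, Real.norm_of_nonneg (cut_nonneg_ta _ _ _)]
        refine (mul_le_of_le_one_left (norm_nonneg _) (cut_le_one_ta _ _ _)).trans ?_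
        refine (norm_tK_le' e _).trans ?_
        exact inv_anti₀ (by positivity) (pow_le_pow_left₀ hl.le hw1.le n)
      · rw [indicator_of_notMem hw]
        rw [mem_closedBall, not_le, dist_comm, dist_eq_norm] at hw
        rw [cut_eq_zero_ta 0 hl (by rw [dist_zero_right]; exact hw.le), zero_smul, norm_zero]
  · congr 1
    rw [mul_pow]; field_simp

/-- moving the point by a multiple of the regularisation scale -/
theorem G_move (n : ℕ) (C : ℝ) (hC : 0 < C) (A : ℝ) (hA : 0 < A) : ∃ K : ℝ, 0 < K ∧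
    ∀ (d : ℕ) (ν : Measure (Eu d)), UpReg n C ν → ∀ (y x : Eu d) (e l : ℝ), 0 < e → 0 < l →
      dist y x ≤ A * e → ‖GG n ν e l y - GG n ν e l x‖ ≤ K := by
  obtain ⟨K₁, hK₁, hsub⟩ := kk_sub_le n
  obtain ⟨K₂, hK₂, hfar⟩ := lintegral_far n 1 le_rfl C hC
  refine ⟨2 * (C * (2 * A) ^ n) + K₁ * K₂, by positivity, fun d ν hν y x e l he hl hyx => ?_⟩
  have hlf := hν.isLocallyFiniteMeasure
  unfold GG
  rw [← integral_sub (integrable_kk he hl y) (integrable_kk he hl x)]
  apply norm_le_of_enorm (by positivity)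
  refine (enorm_integral_le_lintegral_enorm _).trans ?_
  set R : ℝ := 2 * A * e with hR
  have hR0 : 0 < R := by positivity
  have hms : MeasurableSet {w : Eu d | R ≤ dist w y} :=
    (isClosed_le continuous_const (by fun_prop)).measurableSet
  rw [← lintegral_add_compl _ hms, add_comm, ENNReal.ofReal_add (by positivity) (by positivity)]
  apply add_le_add
  · rw [← lintegral_indicator hms.compl]
    have h1 : ∀ w, ({w : Eu d | R ≤ dist w y}ᶜ.indicator
        (fun w => ‖kk n e l (y - w) - kk n e l (x - w)‖ₑ) w) =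
        ‖{w : Eu d | R ≤ dist w y}ᶜ.indicator
          (fun w => kk n e l (y - w) - kk n e l (x - w)) w‖ₑ := by
      intro w
      by_cases hw : w ∈ {w : Eu d | R ≤ dist w y}ᶜ
      · rw [indicator_of_mem hw, indicator_of_mem hw]
      · rw [indicator_of_notMem hw, indicator_of_notMem hw, enorm_zero]
    simp_rw [h1]
    refine (enorm_integral_le_ball hν (x := y) (R := R) (B := 2 * (e ^ n)⁻¹) hR0
      (by positivity) (Eventually.of_forall fun w => ?_)).trans (le_of_eq ?_)
    · by_cases hw : w ∈ {w : Eu d | R ≤ dist w y}ᶜ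
      · have hw' : w ∈ closedBall y R := by
          rw [mem_compl_iff, mem_ofPred_eq, not_le] at hw
          exact mem_closedBall.2 hw.le
        rw [indicator_of_mem hw, indicator_of_mem hw']
        refine (norm_sub_le _ _).trans ?_
        have h2 := norm_kk_le_e (n := n) he l (y - w)
        have h3 := norm_kk_le_e (n := n) he l (x - w)
        linarith
      · rw [indicator_of_notMem hw, norm_zero]
        exact indicator_nonneg (fun _ _ => by positivity) _
    · congr 1
      rw [hR, mul_pow (2 * A) e n]; field_simp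
  · have hpt : ∀ w ∈ {w : Eu d | R ≤ dist w y}, ‖kk n e l (y - w) - kk n e l (x - w)‖ₑ ≤
        ENNReal.ofReal (K₁ * R) * ENNReal.ofReal ((‖y - w‖ ^ (n + 1))⁻¹) := by
      intro w hw
      have hw' : R ≤ ‖y - w‖ := by
        rw [← dist_eq_norm, dist_comm]; exact hw
      have h1 : ‖(y - w) - (x - w)‖ = dist y x := by
        rw [dist_eq_norm]; congr 1; abel
      have hne : y - w ≠ 0 := by
        intro h
        rw [h, norm_zero] at hw'
        linarith
      have h2 := hsub d e l hl (y - w) (x - w) (by rw [h1]; linarith) hne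
      rw [← ENNReal.ofReal_mul (by positivity)]
      apply enorm_le_of_norm
      refine h2.trans ?_
      rw [h1]
      apply mul_le_mul_of_nonneg_right _ (by positivity)
      apply mul_le_mul_of_nonneg_left _ hK₁.le
      have : 0 < A * e := by positivity
      linarith
    refine (setLIntegral_mono' hms hpt).trans ?_
    rw [lintegral_const_mul' _ _ ENNReal.ofReal_ne_top]
    refine (mul_le_mul_right (hfar d ν hν y R hR0) _).trans ?_
    rw [← ENNReal.ofReal_mul (by positivity)]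
    apply ENNReal.ofReal_le_ofReal
    apply le_of_eq
    rw [pow_one]; field_simp

/-- the sharp truncation does not see the lower cut where there is no mass -/
theorem Tr_congr {ν : Measure (Eu d)} {x : Eu d} {e ρ l : ℝ} (heρ : e ≤ ρ)
    (h0 : ν (closedBall x ρ) = 0) : Tr n ν e l x = Tr n ν ρ l x := by
  unfold Tr
  apply integral_congr_ae
  have h1 : ∀ᵐ w ∂ν, w ∉ closedBall x ρ := measure_eq_zero_iff_ae_notMem.1 h0
  filter_upwards [ae_restrict_of_ae h1] with w hw
  rw [mem_closedBall, not_le, dist_comm, dist_eq_norm] at hw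
  rw [tK, tK, indicator_of_mem (show x - w ∈ {z : Eu d | e < ‖z‖} from lt_of_le_of_lt heρ hw),
    indicator_of_mem (show x - w ∈ {z : Eu d | ρ < ‖z‖} from hw)]

/-- changing the upper cut, for a measure of finite total mass -/
theorem Tr_large {ν : Measure (Eu d)} {x : Eu d} {e t l M : ℝ} (he : 0 < e) (ht : 0 < t)
    (htl : t ≤ l) (hM : 0 ≤ M) (hν : ν univ ≤ ENNReal.ofReal M) :
    ‖Tr n ν e l x - Tr n ν e t x‖ ≤ (t ^ n)⁻¹ * M := by
  have hfin : ∀ s, ν s ≠ ⊤ := fun s =>
    ((measure_mono (subset_univ s)).trans_lt (hν.trans_lt ENNReal.ofReal_lt_top)).ne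
  unfold Tr
  rw [← integral_diff measurableSet_closedBall (intOn_tK he (hfin _) x)
    (closedBall_subset_closedBall htl)]
  apply norm_le_of_enorm (by positivity)
  refine (enorm_integral_le_lintegral_enorm _).trans ?_
  have hpt : ∀ w ∈ closedBall x l \ closedBall x t, ‖tK n e (x - w)‖ₑ ≤
      ENNReal.ofReal ((t ^ n)⁻¹) := by
    rintro w ⟨-, hw⟩
    rw [mem_closedBall, not_le, dist_comm, dist_eq_norm] at hw
    apply enorm_le_of_norm
    refine (norm_tK_le' e _).trans ?_
    exact inv_anti₀ (by positivity) (pow_le_pow_left₀ ht.le hw.le n)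
  refine (setLIntegral_mono' (measurableSet_closedBall.diff measurableSet_closedBall) hpt).trans ?_
  rw [setLIntegral_const, ENNReal.ofReal_mul (by positivity)]
  exact mul_le_mul_right ((measure_mono (subset_univ _)).trans hν) _

/-- the truncated transform of the indicator of a larger ball -/
theorem trunc_sub_Tr {ν : Measure (Eu d)} {C : ℝ} (hC : 0 < C) (hν : UpReg n C ν) {w x : Eu d}
    {e l : ℝ} (he : 0 < e) (hl : 0 < l) (hx : dist x w ≤ 2 * l) :
    ‖truncRiesz n ν e ((ball w (4 * l)).indicator 1) x - Tr n ν e l x‖ ≤ C * 4 ^ n := by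
  have hlf := hν.isLocallyFiniteMeasure
  have hsub : closedBall x l ⊆ ball w (4 * l) := by
    intro y hy
    rw [mem_closedBall] at hy
    rw [mem_ball]
    have := dist_triangle y x w
    linarith
  rw [TT.truncRiesz_ind]
  unfold Tr
  rw [← integral_diff measurableSet_closedBall (intOn_tK he measure_ball_lt_top.ne x) hsub]
  apply norm_le_of_enorm (by positivity)
  refine (enorm_integral_le_lintegral_enorm _).trans ?_
  have hpt : ∀ y ∈ ball w (4 * l) \ closedBall x l, ‖tK n e (x - y)‖ₑ ≤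
      ENNReal.ofReal ((l ^ n)⁻¹) := by
    rintro y ⟨-, hy⟩
    rw [mem_closedBall, not_le, dist_comm, dist_eq_norm] at hy
    apply enorm_le_of_norm
    refine (norm_tK_le' e _).trans ?_
    exact inv_anti₀ (by positivity) (pow_le_pow_left₀ hl.le hy.le n)
  refine (setLIntegral_mono' (measurableSet_ball.diff measurableSet_closedBall) hpt).trans ?_
  rw [setLIntegral_const]
  have h1 : ν (ball w (4 * l) \ closedBall x l) ≤ ENNReal.ofReal (C * (4 * l) ^ n) :=
    (measure_mono (diff_subset.trans ball_subset_closedBall)).trans (hν w _ (by positivity))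
  refine (mul_le_mul_right h1 _).trans ?_
  rw [← ENNReal.ofReal_mul (by positivity)]
  apply ENNReal.ofReal_le_ofReal
  apply le_of_eq
  rw [mul_pow]; field_simp

/-- the sharp double truncation in the notation of the problem -/
theorem truncRiesz_closedBall (ν : Measure (Eu d)) (e l : ℝ) (x : Eu d) :
    truncRiesz n ν e ((closedBall x l).indicator 1) x = Tr n ν e l x := by
  unfold truncRiesz Tr
  have hms : MeasurableSet {y : Eu d | e < dist x y} :=
    (isOpen_lt continuous_const (by fun_prop)).measurableSet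
  rw [← integral_indicator hms, ← integral_indicator measurableSet_closedBall]
  apply integral_congr_ae
  filter_upwards with y
  by_cases hy : e < dist x y
  · rw [indicator_of_mem (show y ∈ {y : Eu d | e < dist x y} from hy)]
    by_cases hz : y ∈ closedBall x l
    · rw [indicator_of_mem hz, indicator_of_mem hz, Pi.one_apply, one_smul, tK,
        indicator_of_mem (show x - y ∈ {z : Eu d | e < ‖z‖} by
          rw [mem_ofPred_eq, ← dist_eq_norm]; exact hy)]
    · rw [indicator_of_notMem hz, indicator_of_notMem hz, zero_smul]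
  · rw [indicator_of_notMem (show y ∉ {y : Eu d | e < dist x y} from hy)]
    by_cases hz : y ∈ closedBall x l
    · rw [indicator_of_mem hz, tK,
        indicator_of_notMem (show x - y ∉ {z : Eu d | e < ‖z‖} by
          rw [mem_ofPred_eq, ← dist_eq_norm]; exact hy)]
    · rw [indicator_of_notMem hz]

end Vale.Agent.P120.MX

end

section

/-!
Weak testing of the smooth double truncations gives very big pieces of Lipschitz images.
(The texts follow `H982/Testing` and `H982/Main` with a weaker testing condition.)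
-/

open MeasureTheory Metric Set Filter Topology
open scoped ENNReal NNReal

namespace Vale.Agent.P120.MX

open Vale.Agent.P120.TT

variable {n d : ℕ}

/-- weak testing of the smooth double truncations -/
def Weak3 (n : ℕ) (α lam : ℝ) (ν : Measure (Eu d)) : Prop :=
  ∀ (w : Eu d) (l e : ℝ), 0 < l → 0 < e →
    ν {x | dist x w ≤ 2 * l ∧ lam < ‖GG n ν e l x‖} ≤ ENNReal.ofReal (α * l ^ n)

theorem RR_L2 (n d : ℕ) (hn : 1 ≤ n) (c C : ℝ) (hc : 0 < c) (hC : 0 < C) :
    ∃ α : ℝ, 0 < α ∧ ∀ lam : ℝ, ∃ K : ℝ, 0 < K ∧ ∀ (μ : Measure (Eu d)) (D' : ℝ), 0 < D' →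
      (∀ x ∈ μ.support, ∀ y ∈ μ.support, dist x y ≤ D') →
      AR n c C (ENNReal.ofReal D') μ → Weak3 n α lam μ → ∀ (a : Eu d) (S e : ℝ), 0 < S → 0 < e →
      ∫⁻ x, ‖RR n e μ (cut a S) x‖ₑ ^ 2 ∂μ ≤ ENNReal.ofReal (K * S ^ n) := by
  obtain ⟨Ko, hKo, hosc⟩ := osc_le n hn C hC
  obtain ⟨Kf, hKf, hfar⟩ := lintegral_far n n hn C hC
  obtain ⟨Kg, hKg, hGT⟩ := G_sub_T n hn C hC
  set c' : ℝ := c / 32 ^ n with hc'
  have hc'0 : 0 < c' := by positivity
  obtain ⟨α, hα, hJS⟩ := js_cubes n d 16 c' C hc'0 hC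
  refine ⟨α * c' / 4 ^ n, by positivity, fun lam => ?_⟩
  set K₅ : ℝ := |lam| + Ko + C * 4 ^ n + Kg with hK₅
  have hK₅0 : 0 < K₅ := by positivity
  set B : ℝ := 76 * K₅ ^ 2 with hBdef
  have hB : 0 < B := by positivity
  refine ⟨B * (C * 64 ^ n) + (C * 8 ^ n) ^ 2 * (Kf * (8 ^ n)⁻¹), by positivity, ?_⟩
  intro μ D' hD'p hdist0 har hT a S e hS he
  have hlf := har.isLocallyFiniteMeasure
  have hsupp : ∀ᵐ x ∂μ, x ∈ μ.support := by
    rw [ae_iff]; exact Measure.measure_compl_support
  set θ := cut a S with hθdef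
  have hθL := lipC_cut a S hS
  have hθi : Integrable θ μ := hθL.continuous.integrable_of_hasCompactSupport hθL.2
  by_cases hex : ∃ x₀ ∈ μ.support, dist x₀ a < 2 * S
  swap
  · push Not at hex
    have h0 : ∀ x, RR n e μ θ x = 0 := by
      intro x
      unfold RR
      apply integral_eq_zero_of_ae
      filter_upwards [hsupp] with y hy
      rw [hθdef, cut_eq_zero_ta a hS (hex y hy), zero_smul]
      rfl
    have h1 : ∫⁻ x, ‖RR n e μ θ x‖ₑ ^ 2 ∂μ = 0 := by
      simp [h0]
    rw [h1]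
    exact bot_le
  obtain ⟨x₀, hx₀E, hx₀⟩ := hex
  -- the root scale
  obtain ⟨l₀, hl₀, hl₀S, hl₀D, hout, hθout⟩ : ∃ l₀ : ℝ, 0 < l₀ ∧ l₀ ≤ 32 * S ∧
      ENNReal.ofReal l₀ ≤ ENNReal.ofReal 32 * ENNReal.ofReal D' ∧
      (∀ x ∈ μ.support, l₀ / 4 ≤ dist x x₀ → 8 * S ≤ dist x x₀) ∧
      (∀ y ∈ μ.support, 4 * l₀ ≤ dist y x₀ → θ y = 0) := by
    by_cases hSD : S ≤ D'
    · refine ⟨32 * S, by positivity, le_rfl, ?_, ?_, ?_⟩
      · rw [ENNReal.ofReal_mul (by norm_num)]
        exact mul_le_mul_right (ENNReal.ofReal_le_ofReal hSD) _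
      · intro x _ hx; linarith
      · intro y _ hy
        apply cut_eq_zero_ta a hS
        have := dist_triangle y a x₀
        rw [dist_comm a x₀] at this
        linarith
    · push Not at hSD
      have hdist : ∀ x ∈ μ.support, dist x x₀ ≤ D' := fun x hx => hdist0 x hx x₀ hx₀E
      refine ⟨32 * D', by positivity, by linarith, ?_, ?_, ?_⟩
      · rw [ENNReal.ofReal_mul (by norm_num)]
      · intro x hx h1
        have := hdist x hx
        linarith
      · intro x hx h1
        have := hdist x hx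
        linarith
  have har' : AR n c' C (ENNReal.ofReal 32 * ENNReal.ofReal D') μ := by
    rw [hc']
    exact AR_scale har (T := 32) (by norm_num)
  obtain ⟨Q, hQ⟩ := exists_cubes (E := μ.support) Measure.isClosed_support.measurableSet hx₀E
    (le_refl 16) hl₀
  set F : Eu d → Eu d := RR n e μ θ with hF
  have hFc : Continuous F := continuous_RR he hθi
  set v : ℕ → Eu d → Eu d := fun k w => ∫ y in (ball w (4 * Q.l k))ᶜ, θ y • rK n e (w - y) ∂μ
    with hv
  have hoscQ : ∀ k, ∀ w ∈ Q.N k, μ.real {x | x ∈ Q.cube k w ∧ K₅ < ‖F x - v k w‖} ≤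
      α * μ.real (Q.cube k w) := by
    intro k w hw
    have hl := Q.l_pos' k
    have hlS : Q.l k ≤ 32 * S := by
      have := Q.l_anti (Nat.zero_le k)
      rw [Q.l_zero] at this
      linarith
    have hsub : {x | x ∈ Q.cube k w ∧ K₅ < ‖F x - v k w‖} ⊆
        {x | dist x w ≤ 2 * Q.l k ∧ lam < ‖GG n μ e (Q.l k) x‖} := by
      rintro x ⟨hx1, hx2⟩
      have hxd : dist x w ≤ 2 * Q.l k := mem_closedBall.1 (Q.cube_subset k w hx1)
      refine ⟨hxd, ?_⟩
      have h1 := hosc d c _ μ har a w S (Q.l k) e hS hl hlS he x hxd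
      rw [← ofReal_norm, ← ofReal_norm, ← ENNReal.ofReal_add (norm_nonneg _) hKo.le] at h1
      have h2 := (ENNReal.ofReal_le_ofReal_iff (by positivity)).1 h1
      have h3 : K₅ < ‖truncRiesz n μ e ((ball w (4 * Q.l k)).indicator 1) x‖ + Ko :=
        lt_of_lt_of_le hx2 h2
      have h4 := le_abs_self lam
      have h5 := trunc_sub_Tr (n := n) hC har.upper he hl hxd
      have h6 := hGT d μ har.upper x e (Q.l k) he hl
      have h7 := norm_sub_norm_le (truncRiesz n μ e ((ball w (4 * Q.l k)).indicator 1) x)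
        (Tr n μ e (Q.l k) x)
      have h8 := norm_sub_norm_le (Tr n μ e (Q.l k) x) (GG n μ e (Q.l k) x)
      rw [norm_sub_rev] at h8
      rw [hK₅] at h3
      linarith
    have h1 : μ.real {x | x ∈ Q.cube k w ∧ K₅ < ‖F x - v k w‖} ≤
        α * c' / 4 ^ n * (Q.l k) ^ n :=
      ENNReal.toReal_le_of_le_ofReal (by positivity)
        ((measure_mono hsub).trans (hT w (Q.l k) e hl he))
    refine h1.trans ?_
    have h4 := Q.cube_lower har' hl₀D hw
    calc α * c' / 4 ^ n * (Q.l k) ^ n = α * (c' * (Q.l k / 4) ^ n) := by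
          rw [div_pow]
          field_simp
      _ ≤ α * μ.real (Q.cube k w) := mul_le_mul_of_nonneg_left h4 hα.le
  have hmain := hJS K₅ hK₅0 μ _ har' l₀ hl₀D Q x₀ hQ F hFc v hoscQ
  rw [← hBdef] at hmain
  have hv0 : v 0 x₀ = 0 := by
    simp only [hv]
    apply setIntegral_eq_zero_of_ae_eq_zero
    filter_upwards [hsupp] with y hy hyc
    rw [mem_compl_iff, mem_ball, not_lt, Q.l_zero] at hyc
    rw [hθout y hy hyc, zero_smul]
  rw [hv0] at hmain
  simp only [sub_zero] at hmain
  -- the two parts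
  have hcm : MeasurableSet (Q.cube 0 x₀) := Q.measurableSet_cube 0 x₀
  rw [← lintegral_add_compl _ hcm, add_mul, ENNReal.ofReal_add (by positivity) (by positivity)]
  apply add_le_add
  · have hint : IntegrableOn (fun x => ‖F x‖ ^ 2) (Q.cube 0 x₀) μ :=
      ((hFc.norm.pow 2).locallyIntegrable.integrableOn_isCompact
        (isCompact_closedBall x₀ (2 * Q.l 0))).mono_set (Q.cube_subset 0 x₀)
    have h1 : ∫⁻ x in Q.cube 0 x₀, ‖F x‖ₑ ^ 2 ∂μ =
        ENNReal.ofReal (∫ x in Q.cube 0 x₀, ‖F x‖ ^ 2 ∂μ) := by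
      rw [ofReal_integral_eq_lintegral_ofReal hint (Eventually.of_forall fun x => sq_nonneg _)]
      apply lintegral_congr
      intro x
      rw [ENNReal.ofReal_pow (norm_nonneg _), ofReal_norm]
    rw [h1]
    apply ENNReal.ofReal_le_ofReal
    refine hmain.trans ?_
    have h2 := Q.cube_upper har' 0 x₀
    rw [Q.l_zero] at h2
    calc B * μ.real (Q.cube 0 x₀) ≤ B * (C * (2 * l₀) ^ n) := mul_le_mul_of_nonneg_left h2 hB.le
      _ ≤ B * (C * (64 * S) ^ n) := by
          have h3 : (2 * l₀) ^ n ≤ (64 * S) ^ n :=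
            pow_le_pow_left₀ (by positivity) (by linarith) n
          exact mul_le_mul_of_nonneg_left (mul_le_mul_of_nonneg_left h3 hC.le) hB.le
      _ = _ := by rw [mul_pow]; ring
  · have h1 : ∫⁻ x in (Q.cube 0 x₀)ᶜ, ‖F x‖ₑ ^ 2 ∂μ ≤
        ∫⁻ x in {x | 8 * S ≤ dist x x₀}, ‖F x‖ₑ ^ 2 ∂μ := by
      have hms : MeasurableSet {x : Eu d | 8 * S ≤ dist x x₀} :=
        (isClosed_le continuous_const (by fun_prop)).measurableSet
      rw [← lintegral_indicator hcm.compl, ← lintegral_indicator hms]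
      apply lintegral_mono_ae
      filter_upwards [hsupp] with x hx
      by_cases hxc : x ∈ (Q.cube 0 x₀)ᶜ
      · rw [indicator_of_mem hxc]
        have h2 : l₀ / 4 ≤ dist x x₀ := by
          have := Q.dist_of_p_ne hQ hx (fun h => hxc ⟨hx, h⟩)
          rwa [Q.l_zero] at this
        rw [indicator_of_mem (show x ∈ {x : Eu d | 8 * S ≤ dist x x₀} from hout x hx h2)]
      · rw [indicator_of_notMem hxc]
        exact bot_le
    refine h1.trans ?_
    have hms : MeasurableSet {x : Eu d | 8 * S ≤ dist x x₀} :=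
      (isClosed_le continuous_const (by fun_prop)).measurableSet
    have hpt : ∀ x ∈ {x : Eu d | 8 * S ≤ dist x x₀}, ‖F x‖ₑ ^ 2 ≤
        ENNReal.ofReal ((C * (8 * S) ^ n) ^ 2) * ENNReal.ofReal ((‖x₀ - x‖ ^ (n + n))⁻¹) := by
      intro x hx
      have h2 := RR_far (e := e) har hS hx₀ (show 8 * S ≤ dist x x₀ from hx)
      refine (pow_le_pow_left₀ bot_le h2 2).trans ?_
      rw [← ENNReal.ofReal_mul (by positivity), ← ENNReal.ofReal_pow (by positivity)]
      apply ENNReal.ofReal_le_ofReal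
      apply le_of_eq
      rw [mul_pow, pow_add, inv_pow, ← pow_two]
    refine (setLIntegral_mono' hms hpt).trans ?_
    rw [lintegral_const_mul' _ _ ENNReal.ofReal_ne_top]
    refine (mul_le_mul_right (hfar d μ har.upper x₀ (8 * S) (by positivity)) _).trans ?_
    rw [← ENNReal.ofReal_mul (by positivity)]
    apply ENNReal.ofReal_le_ofReal
    apply le_of_eq
    rw [mul_pow 8 S n]
    field_simp

/-- **weak testing implies the bound of the forms** -/
theorem rb_of_weak (n d : ℕ) (hn : 1 ≤ n) (c C : ℝ) (hc : 0 < c) (hC : 0 < C) :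
    ∃ α : ℝ, 0 < α ∧ ∀ lam : ℝ, ∃ K : ℝ, 0 < K ∧ ∀ (μ : Measure (Eu d)) (D' : ℝ), 0 < D' →
      (∀ x ∈ μ.support, ∀ y ∈ μ.support, dist x y ≤ D') →
      AR n c C (ENNReal.ofReal D') μ → Weak3 n α lam μ → TT.RB n K μ := by
  obtain ⟨α, hα, H⟩ := MX.RR_L2 n d hn c C hc hC
  refine ⟨α, hα, fun lam => ?_⟩
  obtain ⟨K, hK, H⟩ := H lam
  refine ⟨Real.sqrt K, Real.sqrt_pos.2 hK, ?_⟩
  intro μ D' hD' hdist har hT
  have hlf := har.isLocallyFiniteMeasure
  refine ⟨Real.sqrt_nonneg _, fun e he a S hS ψ hψ hψ' => ?_⟩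
  have hθL := lipC_cut a S hS
  have hθi : Integrable (cut a S) μ := hθL.continuous.integrable_of_hasCompactSupport hθL.2
  have hψi : Integrable ψ μ := hψ.integrable_of_hasCompactSupport hψ'
  have mψ : MemLp ψ 2 μ := hψ.memLp_of_hasCompactSupport hψ'
  rw [form_eq_RR har he hψi hθi]
  have hFm : AEStronglyMeasurable (RR n e μ (cut a S)) μ :=
    (continuous_RR he hθi).aestronglyMeasurable
  have h4 : ‖∫ x, ψ x • RR n e μ (cut a S) x ∂μ‖ₑ ≤
      eLpNorm ψ 2 μ * eLpNorm (RR n e μ (cut a S)) 2 μ := by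
    refine (enorm_integral_le_lintegral_enorm _).trans ?_
    have h5 := eLpNorm_smul_le_mul_eLpNorm (p := 2) (q := 2) (r := 1) hFm mψ.aestronglyMeasurable
    rwa [eLpNorm_one_eq_lintegral_enorm] at h5
  have h6 : eLpNorm (RR n e μ (cut a S)) 2 μ ≤ ENNReal.ofReal (Real.sqrt (K * S ^ n)) := by
    rw [eLpNorm_eq_lintegral_rpow_enorm_toReal (by norm_num) (by norm_num)]
    simp only [ENNReal.toReal_ofNat, ENNReal.rpow_ofNat]
    have h7 := ENNReal.rpow_le_rpow (H μ D' hD' hdist har hT a S e hS he)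
      (show (0 : ℝ) ≤ 1 / 2 by norm_num)
    refine h7.trans (le_of_eq ?_)
    rw [ENNReal.ofReal_rpow_of_nonneg (by positivity) (by norm_num), Real.sqrt_eq_rpow]
  have h8 : ‖∫ x, ψ x • RR n e μ (cut a S) x ∂μ‖ₑ ≤
      eLpNorm ψ 2 μ * ENNReal.ofReal (Real.sqrt (K * S ^ n)) := h4.trans (mul_le_mul_right h6 _)
  rw [eLpNorm_two_of_compact hψ hψ', ← ENNReal.ofReal_mul (Real.sqrt_nonneg _), ← ofReal_norm,
    ENNReal.ofReal_le_ofReal_iff (by positivity), Real.sqrt_mul hK.le] at h8
  refine h8.trans (le_of_eq ?_)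
  ring

/-- **weak testing implies very big pieces of Lipschitz images** -/
theorem big_of_weak3 (n d : ℕ) (hn : 1 ≤ n) (hnd : n ≤ d) (c C : ℝ) (hc : 0 < c) (hC : 0 < C) :
    ∃ α : ℝ, 0 < α ∧ ∀ lam η : ℝ, 0 < η → ∃ M : ℝ≥0, ∀ (μ : Measure (Eu d)) (D' : ℝ), 0 < D' →
      (∀ x ∈ μ.support, ∀ y ∈ μ.support, dist x y ≤ D') →
      AR n c C (ENNReal.ofReal D') μ → Weak3 n α lam μ →
      ∀ x ∈ μ.support, ∀ r : ℝ, 0 < r → r ≤ D' →
        ∃ g : Eu n → Eu d, LipschitzWith M g ∧
          μ (ball x r \ g '' ball 0 r) ≤ ENNReal.ofReal (η * r ^ n) := by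
  obtain ⟨α, hα, hW⟩ := MX.rb_of_weak n d hn c C hc hC
  refine ⟨α, hα, fun lam η hη => ?_⟩
  obtain ⟨K, hK, hW⟩ := hW lam
  have hc4 : 0 < c / 4 ^ n := by positivity
  obtain ⟨δ, hδ, hB⟩ := theoremB_big n d hn hnd (c / 4 ^ n) C hc4 hC
  obtain ⟨CA, hCA, hA⟩ := TT.theoremA_bilateral n d 16 hn hnd le_rfl (c / 4 ^ n) C K hc4 hC
    10 δ (by norm_num) hδ
  obtain ⟨M, hB⟩ := hB CA hCA.le (η / 4 ^ n) (by positivity)
  refine ⟨M * 4, ?_⟩
  intro μ D' hD' hdist hAR1 h2 x hx r hr hrD
  have hRB := hW μ D' hD' hdist hAR1 h2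
  have hAR4 := TT.AR_scale hAR1 (T := 4) (by norm_num)
  have hl : 0 < 4 * r := by positivity
  have hlD : ENNReal.ofReal (4 * r) ≤ ENNReal.ofReal 4 * ENNReal.ofReal D' := by
    rw [ENNReal.ofReal_mul (by norm_num)]
    exact mul_le_mul_right (ENNReal.ofReal_le_ofReal hrD) _
  obtain ⟨Q, hQ⟩ := exists_cubes (E := μ.support) Measure.isClosed_support.measurableSet hx
    (le_refl 16) hl
  obtain ⟨g, hg, hmeas⟩ := hB μ _ hAR4 (4 * r) hlD Q x hQ
    (fun J => hA μ _ hAR4 hRB (4 * r) hlD Q x hQ J)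
  refine ⟨fun v => g ((4 : ℝ) • v), ?_, ?_⟩
  · refine hg.comp (LipschitzWith.of_dist_le_mul fun v w => ?_)
    rw [dist_smul₀, Real.norm_of_nonneg (by norm_num : (0 : ℝ) ≤ 4)]
    norm_num
  · have himg : (fun v => g ((4 : ℝ) • v)) '' ball 0 r = g '' ball 0 (4 * r) := by
      ext y
      constructor
      · rintro ⟨v, hv, rfl⟩
        refine ⟨(4 : ℝ) • v, ?_, rfl⟩
        rw [mem_ball, dist_zero_right] at hv ⊢
        rw [norm_smul, Real.norm_of_nonneg (by norm_num : (0 : ℝ) ≤ 4)]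
        linarith
      · rintro ⟨v, hv, rfl⟩
        refine ⟨(4 : ℝ)⁻¹ • v, ?_, ?_⟩
        · rw [mem_ball, dist_zero_right] at hv ⊢
          rw [norm_smul, Real.norm_of_nonneg (by norm_num : (0 : ℝ) ≤ 4⁻¹)]
          linarith
        · show g ((4 : ℝ) • (4 : ℝ)⁻¹ • v) = g v
          rw [smul_smul, mul_inv_cancel₀ (by norm_num), one_smul]
    rw [himg]
    have hsupp : ∀ᵐ y ∂μ, y ∈ μ.support := by
      rw [ae_iff]; exact Measure.measure_compl_support
    have hle : μ (ball x r \ g '' ball 0 (4 * r)) ≤ μ (Q.cube 0 x \ g '' ball 0 (4 * r)) := by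
      apply measure_mono_ae
      filter_upwards [hsupp] with y hy
      rintro ⟨hy1, hy2⟩
      refine ⟨Q.ball_subset_cube hQ ⟨hy, ?_⟩, hy2⟩
      rw [Q.l_zero]
      rw [mem_ball] at hy1 ⊢
      linarith
    refine hle.trans (hmeas.trans (ENNReal.ofReal_le_ofReal (le_of_eq ?_)))
    rw [mul_pow]
    field_simp

end Vale.Agent.P120.MX

end
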