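import Vale.Agent.N120.A

section

/-!
Flat discs: Lebesgue measure on an `n`-dimensional disc in `R^d`.
-/

open MeasureTheory Metric Set Filter Topology
open scoped ENNReal NNReal Pointwise

namespace Vale.Agent.P120.MX

variable {n d : ℕ}

/-- Lebesgue measure on the disc `x + ι(B(0,ρ))` -/
noncomputable def disc (ι : Eu n →ₗᵢ[ℝ] Eu d) (x : Eu d) (ρ : ℝ) : Measure (Eu d) :=
  (volume.restrict (closedBall (0 : Eu n) ρ)).map fun v => x + ι v

theorem isometry_emb (ι : Eu n →ₗᵢ[ℝ] Eu d) (x : Eu d) : Isometry fun v => x + ι v := by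
  apply Isometry.of_dist_eq
  intro a b
  rw [dist_add_left, ι.dist_map]

theorem memb (ι : Eu n →ₗᵢ[ℝ] Eu d) (x : Eu d) : MeasurableEmbedding fun v => x + ι v :=
  (isometry_emb ι x).isClosedEmbedding.measurableEmbedding

theorem dist_emb (ι : Eu n →ₗᵢ[ℝ] Eu d) (x : Eu d) (v : Eu n) : dist (x + ι v) x = ‖v‖ := by
  rw [dist_eq_norm, add_sub_cancel_left, ι.norm_map]

theorem disc_apply (ι : Eu n →ₗᵢ[ℝ] Eu d) (x : Eu d) (ρ : ℝ) (S : Set (Eu d)) :
    disc ι x ρ S = volume ({v | x + ι v ∈ S} ∩ closedBall 0 ρ) := by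
  rw [disc, (memb ι x).map_apply, Measure.restrict_apply' measurableSet_closedBall]
  rfl

theorem disc_univ (ι : Eu n →ₗᵢ[ℝ] Eu d) (x : Eu d) {ρ : ℝ} (hρ : 0 ≤ ρ) :
    disc ι x ρ univ = ENNReal.ofReal (ρ ^ n * uvol n) := by
  rw [disc_apply, ← volume_closedBall_le (0 : Eu n) hρ]
  congr 1
  ext v
  simp

theorem disc_ae (ι : Eu n →ₗᵢ[ℝ] Eu d) (x : Eu d) (ρ : ℝ) :
    ∀ᵐ y ∂disc ι x ρ, ∃ v : Eu n, ‖v‖ ≤ ρ ∧ y = x + ι v := by
  rw [ae_iff, disc_apply]
  convert measure_empty (μ := (volume : Measure (Eu n)))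
  ext v
  simp only [mem_inter_iff, mem_ofPred_eq, mem_closedBall, dist_zero_right, mem_empty_iff_false,
    iff_false, not_and]
  exact fun h hv => h ⟨v, hv, rfl⟩

theorem disc_upper (ι : Eu n →ₗᵢ[ℝ] Eu d) (x : Eu d) (ρ : ℝ) (z : Eu d) {t : ℝ} (ht : 0 ≤ t) :
    disc ι x ρ (closedBall z t) ≤ ENNReal.ofReal ((2 * t) ^ n * uvol n) := by
  rw [disc_apply]
  by_cases h : ∃ v₀ : Eu n, x + ι v₀ ∈ closedBall z t
  · obtain ⟨v₀, hv₀⟩ := h
    rw [← volume_closedBall_le v₀ (by positivity)]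
    apply measure_mono
    rintro v ⟨hv, -⟩
    rw [mem_closedBall, ← (isometry_emb ι x).dist_eq]
    have h1 : dist (x + ι v) z ≤ t := hv
    have h2 : dist (x + ι v₀) z ≤ t := hv₀
    have := dist_triangle_right (x + ι v) (x + ι v₀) z
    linarith
  · have : {v | x + ι v ∈ closedBall z t} ∩ closedBall 0 ρ = ∅ := by
      ext v
      simp only [mem_inter_iff, mem_ofPred_eq, mem_empty_iff_false, iff_false, not_and]
      exact fun hv _ => h ⟨v, hv⟩
    rw [this, measure_empty]
    exact bot_le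

theorem volume_ball_eq (p : Eu n) {r : ℝ} (hr : 0 < r) :
    volume (ball p r) = ENNReal.ofReal (r ^ n * uvol n) := by
  rw [Measure.addHaar_ball_of_pos _ _ hr, finrank_euclideanSpace_fin,
    ENNReal.ofReal_mul (by positivity), uvol, ENNReal.ofReal_toReal measure_ball_lt_top.ne]

theorem disc_lower (ι : Eu n →ₗᵢ[ℝ] Eu d) (x : Eu d) {ρ s t : ℝ} (hρ : 0 < ρ) {v : Eu n}
    (hv : ‖v‖ ≤ ρ) (hs : 0 < s) (hs1 : s ≤ 1) (hst : 2 * s * ρ ≤ t) :
    ENNReal.ofReal ((s * ρ) ^ n * uvol n) ≤ disc ι x ρ (ball (x + ι v) t) := by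
  rw [disc_apply, ← volume_ball_eq ((1 - s) • v) (by positivity)]
  apply measure_mono
  intro u hu
  rw [mem_ball, dist_eq_norm] at hu
  constructor
  · show dist (x + ι u) (x + ι v) < t
    rw [(isometry_emb ι x).dist_eq, dist_eq_norm]
    have h1 : u - v = (u - (1 - s) • v) - s • v := by
      rw [sub_smul, one_smul]; abel
    have h2 : ‖s • v‖ ≤ s * ρ := by
      rw [norm_smul, Real.norm_of_nonneg hs.le]
      exact mul_le_mul_of_nonneg_left hv hs.le
    have h3 := norm_sub_le (u - (1 - s) • v) (s • v)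
    rw [h1]
    linarith
  · rw [mem_closedBall, dist_zero_right]
    have h2 : ‖(1 - s) • v‖ ≤ (1 - s) * ρ := by
      rw [norm_smul, Real.norm_of_nonneg (by linarith)]
      exact mul_le_mul_of_nonneg_left hv (by linarith)
    have h3 := norm_add_le (u - (1 - s) • v) ((1 - s) • v)
    rw [sub_add_cancel] at h3
    linarith

theorem disc_finite (ι : Eu n →ₗᵢ[ℝ] Eu d) (x : Eu d) (ρ : ℝ) : IsFiniteMeasure (disc ι x ρ) := by
  refine ⟨?_⟩
  rw [disc_apply]
  exact (measure_mono inter_subset_right).trans_lt measure_closedBall_lt_top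

/-- an odd function integrates to zero over a ball centred at the point -/
theorem odd_zero {f : Eu n → Eu d} (hf : ∀ u, f (-u) = - f u) (v : Eu n) (δ : ℝ) :
    ∫ u in ball v δ, f (v - u) = 0 := by
  set g : Eu n → Eu d := (ball (0 : Eu n) δ).indicator f with hg
  have h1 : ∫ u in ball v δ, f (v - u) = ∫ u, g (v - u) := by
    rw [← integral_indicator measurableSet_ball]
    apply integral_congr_ae
    filter_upwards with u
    by_cases hu : u ∈ ball v δ
    · have : v - u ∈ ball (0 : Eu n) δ := by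
        rw [mem_ball, dist_zero_right, ← dist_eq_norm, dist_comm]; exact hu
      rw [indicator_of_mem hu, hg, indicator_of_mem this]
    · have : v - u ∉ ball (0 : Eu n) δ := by
        rw [mem_ball, dist_zero_right, ← dist_eq_norm, dist_comm]; exact hu
      rw [indicator_of_notMem hu, hg, indicator_of_notMem this]
  have h2 : ∀ u, g (-u) = - g u := by
    intro u
    by_cases hu : u ∈ ball (0 : Eu n) δ
    · have : -u ∈ ball (0 : Eu n) δ := by
        rw [mem_ball, dist_zero_right, norm_neg, ← dist_zero_right]; exact hu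
      rw [hg, indicator_of_mem hu, indicator_of_mem this, hf]
    · have : -u ∉ ball (0 : Eu n) δ := by
        rw [mem_ball, dist_zero_right, norm_neg, ← dist_zero_right]; exact hu
      rw [hg, indicator_of_notMem hu, indicator_of_notMem this, neg_zero]
  rw [h1, integral_sub_left_eq_self g volume v]
  have h3 := integral_neg_eq_self g (volume : Measure (Eu n))
  simp_rw [h2] at h3
  rw [integral_neg] at h3
  have h4 : (2 : ℝ) • ∫ u, g u = 0 := by
    rw [two_smul]
    nth_rewrite 1 [← h3]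
    exact neg_add_cancel _
  exact (smul_eq_zero.1 h4).resolve_left two_ne_zero

/-- the transform of a disc at a point away from its rim -/
theorem disc_local (ι : Eu n →ₗᵢ[ℝ] Eu d) (x : Eu d) {ρ δ m e l : ℝ} {v : Eu n} (hδ : 0 < δ)
    (hv : ‖v‖ + δ ≤ ρ) (he : 0 < e) (hl : 0 < l) (hm0 : 0 < m) (hm : ρ ≤ m ∨ 2 * l ≤ m) :
    ‖GG n (disc ι x ρ) e l (x + ι v)‖ ≤ (δ ^ n)⁻¹ * (m ^ n * uvol n) := by
  have hu := uvol_pos n
  set f : Eu n → Eu d := fun u => kk n e l (ι u) with hf
  have hfodd : ∀ u, f (-u) = - f u := by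
    intro u
    simp only [hf, map_neg, kk_neg]
  have hfc : Continuous fun u => f (v - u) :=
    ((continuous_kk he l).comp ι.continuous).comp (by fun_prop)
  have h1 : GG n (disc ι x ρ) e l (x + ι v) = ∫ u in closedBall (0 : Eu n) ρ, f (v - u) := by
    unfold GG disc
    rw [(memb ι x).integral_map]
    apply integral_congr_ae
    filter_upwards with u
    simp only [hf, map_sub]
    congr 1
    abel
  have hsub : ball v δ ⊆ closedBall (0 : Eu n) ρ := by
    intro u hu
    rw [mem_ball, dist_eq_norm] at hu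
    rw [mem_closedBall, dist_zero_right]
    have h3 := norm_add_le (u - v) v
    rw [sub_add_cancel] at h3
    linarith
  have hint : IntegrableOn (fun u => f (v - u)) (closedBall (0 : Eu n) ρ) :=
    hfc.continuousOn.integrableOn_compact (isCompact_closedBall _ _)
  have h2 := integral_diff measurableSet_ball hint hsub
  rw [odd_zero hfodd, sub_zero] at h2
  rw [h1, ← h2]
  apply norm_le_of_enorm (by positivity)
  refine (enorm_integral_le_lintegral_enorm _).trans ?_
  obtain ⟨p, hp⟩ : ∃ p : Eu n, ∀ u ∈ closedBall (0 : Eu n) ρ, f (v - u) ≠ 0 →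
      u ∈ closedBall p m := by
    rcases hm with hm | hm
    · exact ⟨0, fun u hu _ => closedBall_subset_closedBall hm hu⟩
    · refine ⟨v, fun u _ hu => ?_⟩
      by_contra hc
      rw [mem_closedBall, not_le, dist_comm, dist_eq_norm] at hc
      apply hu
      apply kk_zero e hl
      rw [ι.norm_map]
      linarith
  have hpt : ∀ u ∈ closedBall (0 : Eu n) ρ \ ball v δ, ‖f (v - u)‖ₑ ≤
      (closedBall p m).indicator (fun _ => ENNReal.ofReal ((δ ^ n)⁻¹)) u := by
    rintro u ⟨hu1, hu2⟩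
    by_cases h0 : f (v - u) = 0
    · rw [h0, enorm_zero]; exact bot_le
    · rw [indicator_of_mem (hp u hu1 h0)]
      apply enorm_le_of_norm
      refine (norm_kk_le e l _).trans ?_
      rw [mem_ball, not_lt, dist_comm, dist_eq_norm] at hu2
      rw [ι.norm_map]
      exact inv_anti₀ (by positivity) (pow_le_pow_left₀ hδ.le hu2 n)
  refine (setLIntegral_mono' (measurableSet_closedBall.diff measurableSet_ball) hpt).trans ?_
  refine (setLIntegral_le_lintegral _ _).trans ?_
  rw [lintegral_indicator measurableSet_closedBall, setLIntegral_const,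
    volume_closedBall_le p hm0.le, ← ENNReal.ofReal_mul (by positivity)]

/-- the rim of a disc -/
theorem disc_rim (ι : Eu n →ₗᵢ[ℝ] Eu d) (x : Eu d) {ρ κ : ℝ} (hρ : 0 < ρ) (hκ : 0 ≤ κ)
    (hκ1 : κ ≤ 1) : disc ι x ρ {y | (1 - κ) * ρ < dist y x} ≤
      ENNReal.ofReal (n * κ) * disc ι x ρ univ := by
  have hu := uvol_pos n
  have h0 : 0 ≤ (1 - κ) * ρ := mul_nonneg (by linarith) hρ.le
  have hsub : closedBall (0 : Eu n) ((1 - κ) * ρ) ⊆ closedBall 0 ρ :=
    closedBall_subset_closedBall (by nlinarith)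
  rw [disc_univ ι x hρ.le, disc_apply]
  have h1 : {v | x + ι v ∈ {y | (1 - κ) * ρ < dist y x}} ∩ closedBall 0 ρ =
      closedBall 0 ρ \ closedBall 0 ((1 - κ) * ρ) := by
    ext v
    simp only [mem_inter_iff, mem_ofPred_eq, dist_emb, mem_diff, mem_closedBall, dist_zero_right,
      not_le]
    tauto
  rw [h1, measure_diff hsub measurableSet_closedBall.nullMeasurableSet
    measure_closedBall_lt_top.ne, volume_closedBall_le _ hρ.le, volume_closedBall_le _ h0,
    ← ENNReal.ofReal_sub _ (by positivity), ← ENNReal.ofReal_mul (by positivity)]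
  apply ENNReal.ofReal_le_ofReal
  have h2 : 1 + (n : ℝ) * (-κ) ≤ (1 + -κ) ^ n := one_add_mul_le_pow (by linarith) n
  rw [mul_pow]
  have h3 : 0 < ρ ^ n * uvol n := by positivity
  have h4 : (1 - κ) ^ n = (1 + -κ) ^ n := by ring
  rw [h4]
  nlinarith

/-- the rim of a large disc inside a small ball -/
theorem disc_rim_big (ι : Eu n →ₗᵢ[ℝ] Eu d) (x w : Eu d) {ρ l : ℝ} (hl : 0 < l) (hρ : 2 * l ≤ ρ)
    {N : ℕ} (hN : 1 ≤ N) :
    disc ι x ρ ({y | ρ - l / N < dist y x} ∩ closedBall w (2 * l)) ≤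
      ENNReal.ofReal (10 ^ n * uvol n * l ^ n / N) := by
  have hu := uvol_pos n
  have hN0 : (0 : ℝ) < N := by exact_mod_cast hN
  have hN1 : (1 : ℝ) ≤ N := by exact_mod_cast hN
  have hρ0 : 0 < ρ := by linarith
  rw [disc_apply]
  set A := {v | x + ι v ∈ {y | ρ - l / N < dist y x} ∩ closedBall w (2 * l)} ∩
    closedBall (0 : Eu n) ρ with hA
  rcases A.eq_empty_or_nonempty with h | ⟨v₀, hv₀⟩
  · rw [h, measure_empty]; exact bot_le
  have hmem : ∀ v ∈ A, ρ - l / N < ‖v‖ ∧ ‖v‖ ≤ ρ ∧ dist v v₀ ≤ 4 * l := by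
    intro v hv
    refine ⟨?_, ?_, ?_⟩
    · have := hv.1.1
      rwa [mem_ofPred_eq, dist_emb] at this
    · have := hv.2
      rwa [mem_closedBall, dist_zero_right] at this
    · rw [← (isometry_emb ι x).dist_eq]
      have h1 : dist (x + ι v) w ≤ 2 * l := hv.1.2
      have h2 : dist (x + ι v₀) w ≤ 2 * l := hv₀.1.2
      have := dist_triangle_right (x + ι v) (x + ι v₀) w
      linarith
  set δ : ℝ := l / N / ρ with hδ
  have hδ0 : 0 < δ := by positivity
  have hδN : δ * N * ρ = l := by rw [hδ]; field_simp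
  have hδN2 : δ * N ≤ 1 / 2 := by
    have : δ * N * ρ ≤ 1 / 2 * ρ := by linarith
    exact le_of_mul_le_mul_right this hρ0
  have hδ1 : δ ≤ 1 / 2 := by nlinarith
  set q : ℝ := 1 - δ with hq
  have hq0 : 0 < q := by linarith
  have hq1 : q ≤ 1 := by linarith
  have hqρ : q * ρ = ρ - l / N := by rw [hq, hδ]; field_simp
  have hqk : ∀ k : ℕ, k < N → 1 - δ * N ≤ q ^ k := by
    intro k hk
    have h2 : 1 + (k : ℝ) * (-δ) ≤ (1 + -δ) ^ k := one_add_mul_le_pow (by linarith) k
    have h3 : (k : ℝ) ≤ N := by exact_mod_cast hk.le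
    have h4 : q ^ k = (1 + -δ) ^ k := by rw [hq]; ring
    rw [h4]
    nlinarith
  set R : ℕ → Set (Eu n) := fun k =>
    {u | q ^ (k + 1) * ρ < ‖u‖ ∧ ‖u‖ ≤ q ^ k * ρ} ∩ closedBall v₀ (5 * l) with hR
  have hRm : ∀ k, MeasurableSet (R k) := fun k =>
    ((measurableSet_lt measurable_const measurable_norm).inter
      (measurableSet_le measurable_norm measurable_const)).inter measurableSet_closedBall
  have hRd : ∀ j k, j < k → Disjoint (R j) (R k) := by
    intro j k hjk
    rw [Set.disjoint_left]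
    rintro u ⟨⟨h1, -⟩, -⟩ ⟨⟨-, h2⟩, -⟩
    have h3 : q ^ k ≤ q ^ (j + 1) := pow_le_pow_of_le_one hq0.le hq1 hjk
    have h4 : q ^ k * ρ ≤ q ^ (j + 1) * ρ := mul_le_mul_of_nonneg_right h3 hρ0.le
    linarith
  have hlow : ∀ k ∈ Finset.range N, ENNReal.ofReal ((1 / 2) ^ n) * volume A ≤ volume (R k) := by
    intro k hk
    have hk' := hqk k (Finset.mem_range.1 hk)
    have hqk0 : 0 < q ^ k := pow_pos hq0 k
    have hqk1 : q ^ k ≤ 1 := pow_le_one₀ hq0.le hq1
    have hsub : (q ^ k) • A ⊆ R k := by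
      rintro u ⟨v, hv, rfl⟩
      obtain ⟨h1, h2, h3⟩ := hmem v hv
      have hn : ‖(q ^ k) • v‖ = q ^ k * ‖v‖ := by
        rw [norm_smul, Real.norm_of_nonneg hqk0.le]
      refine ⟨⟨?_, ?_⟩, ?_⟩
      · show q ^ (k + 1) * ρ < ‖(q ^ k) • v‖
        rw [hn, pow_succ, mul_assoc, hqρ]
        exact mul_lt_mul_of_pos_left h1 hqk0
      · show ‖(q ^ k) • v‖ ≤ q ^ k * ρ
        rw [hn]
        exact mul_le_mul_of_nonneg_left h2 hqk0.le
      · show dist ((q ^ k) • v) v₀ ≤ 5 * l
        have h4 : dist ((q ^ k) • v) v ≤ l := by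
          rw [dist_eq_norm, show (q ^ k) • v - v = (q ^ k - 1) • v by rw [sub_smul, one_smul],
            norm_smul, Real.norm_eq_abs, abs_sub_comm, abs_of_nonneg (by linarith)]
          calc (1 - q ^ k) * ‖v‖ ≤ (δ * N) * ρ :=
                mul_le_mul (by linarith) h2 (norm_nonneg _) (by positivity)
            _ = l := hδN
        have := dist_triangle ((q ^ k) • v) v v₀
        linarith
    refine le_trans ?_ (measure_mono hsub)
    rw [Measure.addHaar_smul, finrank_euclideanSpace_fin]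
    apply mul_le_mul_left
    apply ENNReal.ofReal_le_ofReal
    rw [abs_of_nonneg (by positivity)]
    exact pow_le_pow_left₀ (by norm_num) (by linarith) n
  have hsum : ∑ k ∈ Finset.range N, volume (R k) ≤ ENNReal.ofReal ((5 * l) ^ n * uvol n) := by
    rw [← measure_biUnion_finset _ (fun k _ => hRm k), ← volume_closedBall_le v₀ (by positivity)]
    · apply measure_mono
      intro u hu
      simp only [mem_iUnion] at hu
      obtain ⟨k, -, hk⟩ := hu
      exact hk.2
    · intro j _ k _ hjk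
      rcases lt_or_gt_of_ne hjk with h | h
      · exact hRd j k h
      · exact (hRd k j h).symm
  have h5 := (Finset.sum_le_sum hlow).trans hsum
  rw [Finset.sum_const, Finset.card_range, nsmul_eq_mul, ← mul_assoc] at h5
  have h6 : (N : ℝ≥0∞) * ENNReal.ofReal ((1 / 2) ^ n) = ENNReal.ofReal (N * (1 / 2) ^ n) := by
    rw [ENNReal.ofReal_mul hN0.le, ENNReal.ofReal_natCast]
  rw [h6] at h5
  have h7 : 0 < (N : ℝ) * (1 / 2) ^ n := by positivity
  have h8 : volume A ≤ ENNReal.ofReal ((5 * l) ^ n * uvol n) / ENNReal.ofReal (N * (1 / 2) ^ n) := by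
    rw [ENNReal.le_div_iff_mul_le (Or.inl (ENNReal.ofReal_pos.2 h7).ne')
      (Or.inl ENNReal.ofReal_ne_top), mul_comm]
    exact h5
  refine h8.trans (le_of_eq ?_)
  rw [← ENNReal.ofReal_div_of_pos h7]
  congr 1
  rw [mul_pow, show (10 : ℝ) ^ n = 5 ^ n * 2 ^ n by rw [← mul_pow]; norm_num, one_div, inv_pow]
  field_simp

end Vale.Agent.P120.MX

end

section

/-!
Replacing the mass off a compact set by flat discs: the new measure is regular.
-/

open MeasureTheory Metric Set Filter Topology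
open scoped ENNReal NNReal

namespace Vale.Agent.P120.MX

/-- a compact set `F` with a measure on it, and pieces of mass `σ i` near well separated points
`x i` at distance `40 ρ i` from `F` -/
structure WD (n d : ℕ) (c C a₀ r : ℝ) (I : Type) where
  ι : Eu n →ₗᵢ[ℝ] Eu d
  F : Set (Eu d)
  z : Eu d
  x : I → Eu d
  ρ : I → ℝ
  μF : Measure (Eu d)
  σ : I → Measure (Eu d)
  c_pos : 0 < c
  C_pos : 0 < C
  a_pos : 0 < a₀
  r_pos : 0 < r
  F_cpt : IsCompact F
  F_ne : F.Nonempty
  F_sub : F ⊆ closedBall z r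
  ρ_pos : ∀ i, 0 < ρ i
  ρ_eq : ∀ i, infDist (x i) F = 40 * ρ i
  ρ_le : ∀ i, 40 * ρ i ≤ r
  sep : ∀ i j, i ≠ j → 2 * ρ i + 2 * ρ j < dist (x i) (x j)
  μF_supp : μF Fᶜ = 0
  σ_supp : ∀ i, σ i (closedBall (x i) (10 * ρ i))ᶜ = 0
  mass_lo : ∀ i, ENNReal.ofReal (a₀ * ρ i ^ n) ≤ σ i univ
  up : UpReg n C (μF + Measure.sum σ)
  low : ∀ y ∈ F, ∀ t, 0 < t → t ≤ r →
    ENNReal.ofReal (c * t ^ n) ≤ (μF + Measure.sum σ) (ball y t)

theorem tsum_unique_le {I : Type} {p : I → Prop} [DecidablePred p]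
    (hp : ∀ i j, p i → p j → i = j) (B : ℝ≥0∞) : ∑' i, (if p i then B else 0) ≤ B := by
  by_cases h : ∃ i, p i
  · obtain ⟨i, hi⟩ := h
    rw [tsum_eq_single i, if_pos hi]
    intro j hj
    rw [if_neg fun h' => hj (hp j i h' hi)]
  · push Not at h
    simp [h]

namespace WD

variable {n d : ℕ} {c C a₀ r : ℝ} {I : Type} (W : WD n d c C a₀ r I)

/-- the old measure -/
noncomputable def tot : Measure (Eu d) := W.μF + Measure.sum W.σ

/-- the density of the `i`-th disc -/
noncomputable def a (i : I) : ℝ≥0∞ := W.σ i univ / ENNReal.ofReal (W.ρ i ^ n * uvol n)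

/-- the `i`-th disc -/
noncomputable def nui (i : I) : Measure (Eu d) := W.a i • disc W.ι (W.x i) (W.ρ i)

/-- the new measure -/
noncomputable def nu : Measure (Eu d) := W.μF + Measure.sum W.nui

theorem tot_up : UpReg n C W.tot := W.up

theorem σ_le_tot (i : I) : W.σ i ≤ W.tot :=
  (Measure.le_sum W.σ i).trans (Measure.le_add_left le_rfl)

theorem μF_le_tot : W.μF ≤ W.tot := Measure.le_add_right le_rfl

theorem nui_le_nu (i : I) : W.nui i ≤ W.nu :=
  (Measure.le_sum W.nui i).trans (Measure.le_add_left le_rfl)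

theorem μF_le_nu : W.μF ≤ W.nu := Measure.le_add_right le_rfl

theorem σ_univ_le (i : I) {S : Set (Eu d)} (h : closedBall (W.x i) (10 * W.ρ i) ⊆ S) :
    W.σ i univ ≤ W.σ i S := by
  rw [← union_compl_self (closedBall (W.x i) (10 * W.ρ i))]
  refine (measure_union_le _ _).trans ?_
  rw [W.σ_supp, add_zero]
  exact measure_mono h

theorem σ_ae (i : I) : ∀ᵐ y ∂W.σ i, dist y (W.x i) ≤ 10 * W.ρ i := by
  have := measure_eq_zero_iff_ae_notMem.1 (W.σ_supp i)
  filter_upwards [this] with y hy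
  simpa using hy

theorem μF_ae : ∀ᵐ y ∂W.μF, y ∈ W.F := by
  have := measure_eq_zero_iff_ae_notMem.1 W.μF_supp
  filter_upwards [this] with y hy
  simpa using hy

theorem mass_hi (i : I) : W.σ i univ ≤ ENNReal.ofReal (C * (10 * W.ρ i) ^ n) :=
  (W.σ_univ_le i subset_rfl).trans ((W.σ_le_tot i _).trans
    (W.tot_up _ _ (by have := W.ρ_pos i; positivity)))

theorem mass_ne_top (i : I) : W.σ i univ ≠ ⊤ :=
  ((W.mass_hi i).trans_lt ENNReal.ofReal_lt_top).ne

theorem vol_pos (i : I) : 0 < W.ρ i ^ n * uvol n := by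
  have := W.ρ_pos i
  have := uvol_pos n
  positivity

theorem a_le (i : I) : W.a i ≤ ENNReal.ofReal (C * 10 ^ n / uvol n) := by
  have h1 := W.ρ_pos i
  have h2 := uvol_pos n
  have h3 := W.C_pos
  unfold a
  refine (ENNReal.div_le_div_right (W.mass_hi i) _).trans (le_of_eq ?_)
  rw [← ENNReal.ofReal_div_of_pos (W.vol_pos i)]
  congr 1
  rw [mul_pow]; field_simp

theorem le_a (i : I) : ENNReal.ofReal (a₀ / uvol n) ≤ W.a i := by
  have h1 := W.ρ_pos i
  have h2 := uvol_pos n
  unfold a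
  refine le_trans (le_of_eq ?_) (ENNReal.div_le_div_right (W.mass_lo i) _)
  rw [← ENNReal.ofReal_div_of_pos (W.vol_pos i)]
  congr 1
  field_simp

theorem a_ne_top (i : I) : W.a i ≠ ⊤ := ((W.a_le i).trans_lt ENNReal.ofReal_lt_top).ne

theorem nui_apply (i : I) (S : Set (Eu d)) :
    W.nui i S = W.a i * disc W.ι (W.x i) (W.ρ i) S := by
  rw [nui, Measure.smul_apply, smul_eq_mul]

theorem nui_univ (i : I) : W.nui i univ = W.σ i univ := by
  rw [nui_apply, disc_univ _ _ (W.ρ_pos i).le, a,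
    ENNReal.div_mul_cancel (ENNReal.ofReal_pos.2 (W.vol_pos i)).ne' ENNReal.ofReal_ne_top]

theorem nui_ae (i : I) : ∀ᵐ y ∂W.nui i, ∃ v : Eu n, ‖v‖ ≤ W.ρ i ∧ y = W.x i + W.ι v :=
  Measure.ae_smul_measure (disc_ae W.ι (W.x i) (W.ρ i)) _

theorem nui_ae' (i : I) : ∀ᵐ y ∂W.nui i, dist y (W.x i) ≤ W.ρ i := by
  filter_upwards [W.nui_ae i] with y hy
  obtain ⟨v, hv, rfl⟩ := hy
  rwa [dist_emb]

theorem nui_zero (i : I) {S : Set (Eu d)} (h : ∀ y ∈ S, W.ρ i < dist y (W.x i)) :
    W.nui i S = 0 := by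
  rw [measure_eq_zero_iff_ae_notMem]
  filter_upwards [W.nui_ae' i] with y hy hS
  linarith [h y hS]

theorem le_nui (i : I) {S : Set (Eu d)} (h : closedBall (W.x i) (W.ρ i) ⊆ S) :
    W.σ i univ ≤ W.nui i S := by
  rw [← W.nui_univ, ← union_compl_self S]
  refine (measure_union_le _ _).trans ?_
  rw [W.nui_zero i (S := Sᶜ), add_zero]
  intro y hy
  by_contra hc
  exact hy (h (mem_closedBall.2 (not_lt.1 hc)))

theorem near_pt (i : I) : ∃ p ∈ W.F, dist (W.x i) p = 40 * W.ρ i := by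
  obtain ⟨p, hp, h⟩ := W.F_cpt.exists_infDist_eq_dist W.F_ne (W.x i)
  exact ⟨p, hp, by rw [← h, W.ρ_eq]⟩

theorem far_F (i : I) {y : Eu d} (hy : y ∈ W.F) : 40 * W.ρ i ≤ dist (W.x i) y := by
  rw [← W.ρ_eq]; exact infDist_le_dist_of_mem hy

theorem big_unique {w : Eu d} {t : ℝ} {i j : I} (hi : dist (W.x i) w ≤ W.ρ i + t ∧ t ≤ W.ρ i)
    (hj : dist (W.x j) w ≤ W.ρ j + t ∧ t ≤ W.ρ j) : i = j := by
  by_contra h
  have h1 := W.sep i j h
  have h2 := dist_triangle_right (W.x i) (W.x j) w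
  linarith [hi.1, hi.2, hj.1, hj.2]

theorem tsum_mass_le {p : I → Prop} [DecidablePred p] {w : Eu d} {R : ℝ} (hR : 0 < R)
    (h : ∀ i, p i → dist (W.x i) w + 10 * W.ρ i ≤ R) :
    ∑' i, (if p i then W.σ i univ else 0) ≤ ENNReal.ofReal (C * R ^ n) := by
  have h1 : ∀ i, (if p i then W.σ i univ else 0) ≤ W.σ i (closedBall w R) := by
    intro i
    split_ifs with hi
    · exact W.σ_univ_le i (closedBall_subset_closedBall' (by linarith [h i hi]))
    · exact bot_le
  refine (ENNReal.tsum_le_tsum h1).trans ?_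
  rw [← Measure.sum_apply _ measurableSet_closedBall]
  exact le_trans (Measure.le_add_left le_rfl _) (W.tot_up w R hR)

/-- upper regularity of the new measure -/
theorem nu_up : UpReg n (C * (1 + 12 ^ n + 20 ^ n)) W.nu := by
  classical
  intro w t ht
  have hC := W.C_pos
  have hu := uvol_pos n
  have h1 : ∀ i, W.nui i (closedBall w t) ≤
      (if dist (W.x i) w ≤ W.ρ i + t ∧ W.ρ i ≤ t then W.σ i univ else 0) +
      (if dist (W.x i) w ≤ W.ρ i + t ∧ t ≤ W.ρ i then ENNReal.ofReal (C * 20 ^ n * t ^ n)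
        else 0) := by
    intro i
    by_cases h : dist (W.x i) w ≤ W.ρ i + t
    · rcases le_total (W.ρ i) t with h' | h'
      · rw [if_pos ⟨h, h'⟩, ← W.nui_univ]
        exact le_add_right (measure_mono (subset_univ _))
      · rw [if_pos (show dist (W.x i) w ≤ W.ρ i + t ∧ t ≤ W.ρ i from ⟨h, h'⟩)]
        refine le_add_left ?_
        rw [nui_apply]
        refine (mul_le_mul' (W.a_le i) (disc_upper _ _ _ w ht.le)).trans (le_of_eq ?_)
        rw [← ENNReal.ofReal_mul (by positivity)]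
        congr 1
        rw [mul_pow, show (20 : ℝ) ^ n = 10 ^ n * 2 ^ n by rw [← mul_pow]; norm_num]
        field_simp
    · rw [W.nui_zero i]
      · exact bot_le
      · intro y hy
        rw [mem_closedBall] at hy
        have := dist_triangle_left (W.x i) w y
        push Not at h
        linarith
  rw [nu, Measure.add_apply, Measure.sum_apply _ measurableSet_closedBall]
  have h2 := (ENNReal.tsum_le_tsum h1).trans (le_of_eq ENNReal.tsum_add)
  have h3 := W.tsum_mass_le (p := fun i => dist (W.x i) w ≤ W.ρ i + t ∧ W.ρ i ≤ t) (w := w)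
    (R := 12 * t) (by positivity) (fun i hi => by linarith [hi.1, hi.2])
  have h4 := tsum_unique_le (p := fun i => dist (W.x i) w ≤ W.ρ i + t ∧ t ≤ W.ρ i)
    (fun i j hi hj => W.big_unique hi hj) (ENNReal.ofReal (C * 20 ^ n * t ^ n))
  have h5 : W.μF (closedBall w t) ≤ ENNReal.ofReal (C * t ^ n) :=
    (W.μF_le_tot _).trans (W.tot_up w t ht)
  refine (add_le_add h5 (h2.trans (add_le_add h3 h4))).trans (le_of_eq ?_)
  rw [← ENNReal.ofReal_add (by positivity) (by positivity),
    ← ENNReal.ofReal_add (by positivity) (by positivity)]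
  congr 1
  rw [mul_pow]; ring

theorem low_F {y : Eu d} (hy : y ∈ W.F) {t : ℝ} (ht : 0 < t) (htr : t ≤ r) :
    ENNReal.ofReal (c * (t / 2) ^ n) ≤ W.nu (ball y t) := by
  refine (W.low y hy (t / 2) (by positivity) (by linarith)).trans ?_
  rw [nu, Measure.add_apply, Measure.add_apply, Measure.sum_apply _ measurableSet_ball,
    Measure.sum_apply _ measurableSet_ball]
  refine add_le_add (measure_mono (ball_subset_ball (by linarith))) (ENNReal.tsum_le_tsum ?_)
  intro i
  by_cases h : dist (W.x i) y < t / 2 + 10 * W.ρ i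
  · refine (measure_mono (subset_univ _)).trans (W.le_nui i ?_)
    have h1 := W.far_F i hy
    have h2 := W.ρ_pos i
    apply closedBall_subset_ball'
    linarith
  · have : W.σ i (ball y (t / 2)) = 0 := by
      rw [measure_eq_zero_iff_ae_notMem]
      filter_upwards [W.σ_ae i] with p hp hp2
      rw [mem_ball] at hp2
      have := dist_triangle_left (W.x i) y p
      linarith
    rw [this]
    exact bot_le

/-- the lower constant -/
noncomputable def cl (n : ℕ) (c a₀ : ℝ) : ℝ := min (a₀ / 200 ^ n) (c / 4 ^ n)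

theorem cl_pos {c a₀ : ℝ} (hc : 0 < c) (ha : 0 < a₀) : 0 < cl n c a₀ :=
  lt_min (by positivity) (by positivity)

theorem low_Z {y : Eu d} (hy : y ∈ W.F ∨ ∃ i, ∃ v : Eu n, ‖v‖ ≤ W.ρ i ∧ y = W.x i + W.ι v)
    {t : ℝ} (ht : 0 < t) (htr : t ≤ r) :
    ENNReal.ofReal (cl n c a₀ * t ^ n) ≤ W.nu (ball y t) := by
  have hc := W.c_pos
  have ha := W.a_pos
  have hu := uvol_pos n
  have hF : ∀ p ∈ W.F, dist p y ≤ t / 2 →
      ENNReal.ofReal (cl n c a₀ * t ^ n) ≤ W.nu (ball y t) := by
    intro p hp hpy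
    refine le_trans ?_ ((W.low_F hp (t := t / 2) (by positivity) (by linarith)).trans
      (measure_mono (ball_subset_ball' (by linarith))))
    apply ENNReal.ofReal_le_ofReal
    calc cl n c a₀ * t ^ n ≤ c / 4 ^ n * t ^ n :=
          mul_le_mul_of_nonneg_right (min_le_right _ _) (by positivity)
      _ = c * (t / 2 / 2) ^ n := by
          rw [show t / 2 / 2 = t / 4 by ring, div_pow]; ring
  rcases hy with hy | ⟨i, v, hv, rfl⟩
  · exact hF y hy (by rw [dist_self]; positivity)
  · have hρ := W.ρ_pos i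
    by_cases h : t ≤ 100 * W.ρ i
    · refine le_trans ?_ (W.nui_le_nu i _)
      rw [nui_apply]
      have hs1 : t / (200 * W.ρ i) ≤ 1 := by
        rw [div_le_one (by positivity)]; linarith
      have hst : 2 * (t / (200 * W.ρ i)) * W.ρ i ≤ t := by
        have : 2 * (t / (200 * W.ρ i)) * W.ρ i = t / 100 := by field_simp; norm_num
        linarith
      refine le_trans ?_ (mul_le_mul' (W.le_a i)
        (disc_lower W.ι (W.x i) hρ hv (by positivity) hs1 hst))
      rw [← ENNReal.ofReal_mul (by positivity)]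
      apply ENNReal.ofReal_le_ofReal
      calc cl n c a₀ * t ^ n ≤ a₀ / 200 ^ n * t ^ n :=
            mul_le_mul_of_nonneg_right (min_le_left _ _) (by positivity)
        _ = a₀ / uvol n * ((t / (200 * W.ρ i) * W.ρ i) ^ n * uvol n) := by
            rw [show t / (200 * W.ρ i) * W.ρ i = t / 200 by field_simp, div_pow]
            field_simp
    · obtain ⟨p, hp, hpd⟩ := W.near_pt i
      apply hF p hp
      have h1 := dist_triangle_left p (W.x i + W.ι v) (W.x i)
      rw [dist_comm (W.x i) (W.x i + W.ι v), dist_emb] at h1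
      linarith

theorem nu_ae_Z [Countable I] :
    ∀ᵐ y ∂W.nu, y ∈ W.F ∨ ∃ i, ∃ v : Eu n, ‖v‖ ≤ W.ρ i ∧ y = W.x i + W.ι v := by
  rw [nu, ae_add_measure_iff, Measure.ae_sum_iff]
  refine ⟨?_, fun i => ?_⟩
  · filter_upwards [W.μF_ae] with y hy using Or.inl hy
  · filter_upwards [W.nui_ae i] with y hy using Or.inr ⟨i, hy⟩

theorem Z_dist {y : Eu d} (hy : y ∈ W.F ∨ ∃ i, ∃ v : Eu n, ‖v‖ ≤ W.ρ i ∧ y = W.x i + W.ι v) :
    dist y W.z ≤ 5 * r / 2 := by
  have hr := W.r_pos
  rcases hy with hy | ⟨i, v, hv, rfl⟩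
  · have := mem_closedBall.1 (W.F_sub hy)
    linarith
  · obtain ⟨p, hp, hpd⟩ := W.near_pt i
    have h1 := mem_closedBall.1 (W.F_sub hp)
    have h2 := dist_triangle4 (W.x i + W.ι v) (W.x i) p W.z
    rw [dist_emb] at h2
    linarith [W.ρ_le i]

theorem supp_closure [Countable I] : W.nu.support ⊆
    closure {y | y ∈ W.F ∨ ∃ i, ∃ v : Eu n, ‖v‖ ≤ W.ρ i ∧ y = W.x i + W.ι v} := by
  apply Measure.support_subset_of_isClosed isClosed_closure
  filter_upwards [W.nu_ae_Z] with y hy using subset_closure hy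

theorem supp_dist [Countable I] : ∀ x ∈ W.nu.support, ∀ y ∈ W.nu.support, dist x y ≤ 5 * r := by
  have h : W.nu.support ⊆ closedBall W.z (5 * r / 2) := by
    refine W.supp_closure.trans (closure_minimal ?_ isClosed_closedBall)
    exact fun y hy => W.Z_dist hy
  intro x hx y hy
  have h1 := mem_closedBall.1 (h hx)
  have h2 := mem_closedBall.1 (h hy)
  have := dist_triangle_right x y W.z
  linarith

/-- the new measure is regular -/
theorem nu_AR [Countable I] : AR n (cl n c a₀ / 2 ^ n / 5 ^ n) (C * (1 + 12 ^ n + 20 ^ n))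
    (ENNReal.ofReal (5 * r)) W.nu := by
  have hC := W.C_pos
  have hcl := cl_pos (n := n) W.c_pos W.a_pos
  have h1 : AR n (cl n c a₀ / 2 ^ n) (C * (1 + 12 ^ n + 20 ^ n)) (ENNReal.ofReal r) W.nu := by
    refine ⟨by positivity, by positivity, W.nu_up, fun y hy t ht htr => ?_⟩
    have htr' : t ≤ r := (ENNReal.ofReal_le_ofReal_iff W.r_pos.le).1 htr
    obtain ⟨p, hp, hpy⟩ := Metric.mem_closure_iff.1 (W.supp_closure hy) (t / 2) (by positivity)
    refine le_trans ?_ ((W.low_Z hp (t := t / 2) (by positivity) (by linarith)).trans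
      (measure_mono (ball_subset_ball' (by rw [dist_comm]; linarith))))
    apply ENNReal.ofReal_le_ofReal
    apply le_of_eq
    rw [div_pow]; ring
  have h2 := TT.AR_scale h1 (T := 5) (by norm_num)
  rwa [← ENNReal.ofReal_mul (by norm_num)] at h2

theorem F_sub_supp {y : Eu d} (hy : y ∈ W.F) : y ∈ W.nu.support := by
  rw [Measure.mem_support_iff_forall]
  intro U hU
  obtain ⟨t, ht, htU⟩ := Metric.mem_nhds_iff.1 hU
  have hr := W.r_pos
  have hc := W.c_pos
  have h1 := W.low_F hy (t := min t r) (lt_min ht hr) (min_le_right _ _)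
  refine lt_of_lt_of_le ?_ (h1.trans (measure_mono
    ((ball_subset_ball (min_le_left _ _)).trans htU)))
  have := lt_min ht hr
  exact ENNReal.ofReal_pos.2 (by positivity)

theorem tot_univ [Countable I] : W.tot univ ≤ ENNReal.ofReal (C * (3 * r) ^ n) := by
  have hr := W.r_pos
  refine le_trans ?_ (W.tot_up W.z (3 * r) (by positivity))
  apply measure_mono_ae
  have : ∀ᵐ y ∂W.tot, y ∈ closedBall W.z (3 * r) := by
    rw [tot, ae_add_measure_iff, Measure.ae_sum_iff]
    refine ⟨?_, fun i => ?_⟩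
    · filter_upwards [W.μF_ae] with y hy
      exact closedBall_subset_closedBall (by linarith) (W.F_sub hy)
    · filter_upwards [W.σ_ae i] with y hy
      obtain ⟨p, hp, hpd⟩ := W.near_pt i
      have h1 := mem_closedBall.1 (W.F_sub hp)
      have h2 := dist_triangle4 y (W.x i) p W.z
      rw [mem_closedBall]
      linarith [W.ρ_le i]
  filter_upwards [this] with y hy _ using hy

end WD

end Vale.Agent.P120.MX

end
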