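import Vale.Agent.N120.B

section

/-!
Comparison of the transforms of the old and the new measure; weak testing of the new measure.
-/

open MeasureTheory Metric Set Filter Topology
open scoped ENNReal NNReal

namespace Vale.Agent.P120.MX

variable {n d : ℕ}

theorem one_measure {α : Measure (Eu d)} [IsFiniteMeasure α] {f : Eu d → Eu d}
    (hf : Integrable f α) {v : Eu d} {B : ℝ} (h : ∀ᵐ p ∂α, ‖f p - v‖ ≤ B) :
    ‖∫ p, f p ∂α - (α univ).toReal • v‖ₑ ≤ ENNReal.ofReal B * α univ := by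
  have h1 : ∫ p, f p ∂α - (α univ).toReal • v = ∫ p, (f p - v) ∂α := by
    rw [integral_sub hf (integrable_const v), integral_const]
    rfl
  rw [h1]
  refine (enorm_integral_le_lintegral_enorm _).trans ?_
  rw [← lintegral_const]
  apply lintegral_mono_ae
  filter_upwards [h] with p hp using enorm_le_of_norm hp

theorem two_measures {α β : Measure (Eu d)} [IsFiniteMeasure α] [IsFiniteMeasure β]
    (hm : α univ = β univ) {f : Eu d → Eu d} (hα : Integrable f α) (hβ : Integrable f β)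
    {v : Eu d} {B : ℝ} (hB : 0 ≤ B) (h1 : ∀ᵐ p ∂α, ‖f p - v‖ ≤ B)
    (h2 : ∀ᵐ p ∂β, ‖f p - v‖ ≤ B) :
    ‖∫ p, f p ∂α - ∫ p, f p ∂β‖ₑ ≤ ENNReal.ofReal (2 * B) * β univ := by
  have e1 : ∫ p, f p ∂α - ∫ p, f p ∂β =
      (∫ p, f p ∂α - (α univ).toReal • v) - (∫ p, f p ∂β - (β univ).toReal • v) := by
    rw [hm]; abel
  rw [e1]
  refine enorm_sub_le.trans ?_
  refine (add_le_add (one_measure hα h1) (one_measure hβ h2)).trans (le_of_eq ?_)
  rw [hm, ← add_mul, ← ENNReal.ofReal_add hB hB, two_mul]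

theorem markov {μ : Measure (Eu d)} {S Bad : Set (Eu d)} {f : Eu d → ℝ≥0∞} (hf : Measurable f)
    {t : ℝ} (ht : 0 < t) (h : ∀ᵐ y ∂μ, y ∈ S → y ∈ Bad ∨ ENNReal.ofReal t ≤ f y) :
    μ S ≤ μ Bad + (∫⁻ y, f y ∂μ) * ENNReal.ofReal t⁻¹ := by
  have h1 : μ S ≤ μ (Bad ∪ {y | ENNReal.ofReal t ≤ f y}) := by
    apply measure_mono_ae
    filter_upwards [h] with y hy hS using hy hS
  refine h1.trans ((measure_union_le _ _).trans (add_le_add_right ?_ _))
  refine (meas_ge_le_lintegral_div hf.aemeasurable (ENNReal.ofReal_pos.2 ht).ne'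
    ENNReal.ofReal_ne_top).trans (le_of_eq ?_)
  rw [ENNReal.ofReal_inv_of_pos ht, div_eq_mul_inv]

theorem UpReg.of_le {C : ℝ} {μ ν : Measure (Eu d)} (h : UpReg n C ν) (hle : μ ≤ ν) :
    UpReg n C μ := fun x r hr => (hle _).trans (h x r hr)

namespace WD

variable {c C a₀ r : ℝ} {I : Type} (W : WD n d c C a₀ r I)

theorem σ_fin (i : I) : IsFiniteMeasure (W.σ i) := ⟨(W.mass_ne_top i).lt_top⟩

theorem nui_fin (i : I) : IsFiniteMeasure (W.nui i) :=
  ⟨by rw [W.nui_univ]; exact (W.mass_ne_top i).lt_top⟩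

open Classical in
/-- the Marcinkiewicz type sum -/
noncomputable def hh (K : ℝ) (w : Eu d) (l : ℝ) (y : Eu d) : ℝ≥0∞ :=
  ∑' j, (if dist (W.x j) w + 10 * W.ρ j ≤ 8 * l then W.σ j univ else 0) *
    (ENNReal.ofReal (20 * K * W.ρ j) * {y | 20 * W.ρ j ≤ dist y (W.x j)}.indicator
      (fun y => ENNReal.ofReal ((‖W.x j - y‖ ^ (n + 1))⁻¹)) y)

theorem meas_term (j : I) : Measurable ({y | 20 * W.ρ j ≤ dist y (W.x j)}.indicator
      (fun y => ENNReal.ofReal ((‖W.x j - y‖ ^ (n + 1))⁻¹))) := by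
  apply Measurable.indicator
  · fun_prop
  · exact (isClosed_le continuous_const (by fun_prop)).measurableSet

theorem measurable_hh [Countable I] (K : ℝ) (w : Eu d) (l : ℝ) : Measurable (W.hh K w l) := by
  unfold hh
  apply Measurable.ennreal_tsum
  intro j
  exact ((W.meas_term j).const_mul _).const_mul _

theorem lintegral_hh [Countable I] {K K₂ : ℝ} (hK : 0 < K) (hK₂ : 0 < K₂) {ν : Measure (Eu d)}
    (hfar : ∀ (x : Eu d) (r : ℝ), 0 < r →
      ∫⁻ y in {y | r ≤ dist y x}, ENNReal.ofReal ((‖x - y‖ ^ (n + 1))⁻¹) ∂ν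
        ≤ ENNReal.ofReal (K₂ * (r ^ 1)⁻¹)) (w : Eu d) {l : ℝ} (hl : 0 < l) :
    ∫⁻ y, W.hh K w l y ∂ν ≤ ENNReal.ofReal (K * K₂ * C * 8 ^ n * l ^ n) := by
  classical
  have hC := W.C_pos
  unfold hh
  rw [lintegral_tsum fun j => (((W.meas_term j).const_mul _).const_mul _).aemeasurable]
  have h1 : ∀ j, ∫⁻ y, (if dist (W.x j) w + 10 * W.ρ j ≤ 8 * l then W.σ j univ else 0) *
      (ENNReal.ofReal (20 * K * W.ρ j) * {y | 20 * W.ρ j ≤ dist y (W.x j)}.indicator
      (fun y => ENNReal.ofReal ((‖W.x j - y‖ ^ (n + 1))⁻¹)) y) ∂ν ≤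
      (if dist (W.x j) w + 10 * W.ρ j ≤ 8 * l then W.σ j univ else 0) *
        ENNReal.ofReal (K * K₂) := by
    intro j
    have hρ := W.ρ_pos j
    rw [lintegral_const_mul _ ((W.meas_term j).const_mul _),
      lintegral_const_mul _ (W.meas_term j),
      lintegral_indicator (isClosed_le continuous_const (by fun_prop)).measurableSet]
    apply mul_le_mul_right
    refine (mul_le_mul_right (hfar (W.x j) (20 * W.ρ j) (by positivity)) _).trans (le_of_eq ?_)
    rw [← ENNReal.ofReal_mul (by positivity)]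
    congr 1
    field_simp
  refine (ENNReal.tsum_le_tsum h1).trans ?_
  rw [ENNReal.tsum_mul_right]
  refine (mul_le_mul_left (W.tsum_mass_le (w := w) (R := 8 * l) (by positivity)
    (fun i hi => hi)) _).trans (le_of_eq ?_)
  rw [← ENNReal.ofReal_mul (by positivity)]
  congr 1
  rw [mul_pow]; ring

/-- comparison of the new and the old measure -/
theorem compare {K : ℝ} (hK : 0 < K)
    (hsub : ∀ (e l : ℝ), 0 < l → ∀ u u' : Eu d, ‖u - u'‖ ≤ ‖u‖ / 2 → u ≠ 0 →
      ‖kk n e l u - kk n e l u'‖ ≤ K * ‖u - u'‖ * (‖u‖ ^ (n + 1))⁻¹)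
    {w y : Eu d} {e l : ℝ} (he : 0 < e) (hl : 0 < l) (hy : dist y w ≤ 2 * l)
    (hF : infDist y W.F ≤ 41 * e) :
    ‖GG n W.nu e l y - GG n W.tot e l y‖ₑ ≤ ENNReal.ofReal (2 * C * 62 ^ n) + W.hh K w l y := by
  classical
  have hC := W.C_pos
  have l1 := W.nu_up.isLocallyFiniteMeasure
  have l2 := W.tot_up.isLocallyFiniteMeasure
  have i1 := integrable_kk (n := n) (ν := W.nu) he hl y
  have i2 := integrable_kk (n := n) (ν := W.tot) he hl y
  have i3 := (integrable_add_measure.1 i1)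
  have i4 := (integrable_add_measure.1 i2)
  have s1 := hasSum_integral_measure i3.2
  have s2 := hasSum_integral_measure i4.2
  have e1 : GG n W.nu e l y - GG n W.tot e l y =
      ∑' j, (∫ p, kk n e l (y - p) ∂W.nui j - ∫ p, kk n e l (y - p) ∂W.σ j) := by
    rw [(s1.sub s2).tsum_eq]
    unfold GG nu tot
    rw [integral_add_measure i3.1 i3.2, integral_add_measure i4.1 i4.2]
    abel
  rw [e1]
  refine enorm_tsum_le_tsum_enorm.trans ?_
  have hterm : ∀ j, ‖∫ p, kk n e l (y - p) ∂W.nui j - ∫ p, kk n e l (y - p) ∂W.σ j‖ₑ ≤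
      (if dist (W.x j) y + 10 * W.ρ j ≤ 62 * e then W.σ j univ else 0) *
        ENNReal.ofReal (2 * (e ^ n)⁻¹) +
      (if dist (W.x j) w + 10 * W.ρ j ≤ 8 * l then W.σ j univ else 0) *
        (ENNReal.ofReal (20 * K * W.ρ j) * {y | 20 * W.ρ j ≤ dist y (W.x j)}.indicator
          (fun y => ENNReal.ofReal ((‖W.x j - y‖ ^ (n + 1))⁻¹)) y) := by
    intro j
    have hρ := W.ρ_pos j
    have f1 := W.σ_fin j
    have f2 := W.nui_fin j
    have j1 : Integrable (fun p => kk n e l (y - p)) (W.nui j) := i1.mono_measure (W.nui_le_nu j)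
    have j2 : Integrable (fun p => kk n e l (y - p)) (W.σ j) := i2.mono_measure (W.σ_le_tot j)
    have key : ∀ (v : Eu d) (B : ℝ), 0 ≤ B →
        (∀ p, dist p (W.x j) ≤ 10 * W.ρ j → ‖kk n e l (y - p) - v‖ ≤ B) →
        ‖∫ p, kk n e l (y - p) ∂W.nui j - ∫ p, kk n e l (y - p) ∂W.σ j‖ₑ ≤
          ENNReal.ofReal (2 * B) * W.σ j univ := by
      intro v B hB h
      refine two_measures (W.nui_univ j) j1 j2 (v := v) hB ?_ ?_
      · filter_upwards [W.nui_ae' j] with p hp using h p (by linarith)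
      · filter_upwards [W.σ_ae j] with p hp using h p hp
    by_cases hnear : dist y (W.x j) < 20 * W.ρ j
    · have h1 : dist (W.x j) y + 10 * W.ρ j ≤ 62 * e := by
        have h2 := infDist_le_infDist_add_dist (x := W.x j) (y := y) (s := W.F)
        rw [W.ρ_eq, dist_comm] at h2
        rw [dist_comm]
        linarith
      rw [if_pos h1]
      refine le_add_right ?_
      rw [mul_comm]
      exact key 0 _ (by positivity) fun p _ => by rw [sub_zero]; exact norm_kk_le_e he l _
    · push Not at hnear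
      refine le_add_left ?_
      by_cases hI : dist (W.x j) w + 10 * W.ρ j ≤ 8 * l
      · rw [if_pos hI, indicator_of_mem (show y ∈ {y | 20 * W.ρ j ≤ dist y (W.x j)} from hnear),
          mul_comm, ← ENNReal.ofReal_mul (by positivity)]
        have h2 := key (kk n e l (y - W.x j)) (10 * K * W.ρ j * (‖W.x j - y‖ ^ (n + 1))⁻¹)
          (by positivity) fun p hp => by
            have h3 : ‖(y - W.x j) - (y - p)‖ = dist p (W.x j) := by
              rw [dist_eq_norm]; congr 1; abel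
            have h4 : ‖y - W.x j‖ = dist y (W.x j) := (dist_eq_norm _ _).symm
            have hne : y - W.x j ≠ 0 := by
              intro h
              rw [h, norm_zero] at h4
              linarith
            have h5 := hsub e l hl (y - W.x j) (y - p) (by rw [h3, h4]; linarith) hne
            rw [norm_sub_rev, h3, norm_sub_rev y] at h5
            refine h5.trans ?_
            apply mul_le_mul_of_nonneg_right _ (by positivity)
            nlinarith
        refine h2.trans (le_of_eq ?_)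
        congr 2
        ring
      · have h2 := key 0 0 le_rfl fun p hp => by
          rw [sub_zero, kk_zero e hl, norm_zero]
          rw [← dist_eq_norm]
          have h3 := dist_triangle_right y (W.x j) p
          have h4 := dist_triangle_left (W.x j) w y
          rw [dist_comm (W.x j) p] at h3
          push Not at hI
          by_contra hc
          push Not at hc
          linarith
        rw [mul_zero, ENNReal.ofReal_zero, zero_mul] at h2
        exact h2.trans bot_le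
  refine (ENNReal.tsum_le_tsum hterm).trans ?_
  rw [ENNReal.tsum_add, ENNReal.tsum_mul_right]
  refine add_le_add ?_ le_rfl
  refine (mul_le_mul_left (W.tsum_mass_le (w := y) (R := 62 * e) (by positivity)
    (fun i hi => hi)) _).trans (le_of_eq ?_)
  rw [← ENNReal.ofReal_mul (by positivity)]
  congr 1
  rw [mul_pow]; field_simp

theorem nu_eq_nui (i : I) {T : Set (Eu d)} (hT : MeasurableSet T)
    (h : T ⊆ closedBall (W.x i) (2 * W.ρ i)) : W.nu T = W.nui i T := by
  have hρ := W.ρ_pos i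
  have h1 : W.μF T = 0 := by
    rw [measure_eq_zero_iff_ae_notMem]
    filter_upwards [W.μF_ae] with y hy hyT
    have h2 := W.far_F i hy
    have h3 := mem_closedBall.1 (h hyT)
    rw [dist_comm] at h3
    linarith
  rw [nu, Measure.add_apply, h1, zero_add, Measure.sum_apply _ hT, tsum_eq_single i]
  intro j hj
  apply W.nui_zero
  intro y hy
  have h2 := W.sep j i hj
  have h3 := mem_closedBall.1 (h hy)
  have h4 := dist_triangle_left (W.x j) (W.x i) y
  have := W.ρ_pos j
  linarith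

theorem nu_restrict (i : I) : W.nu.restrict (closedBall (W.x i) (W.ρ i)) = W.nui i := by
  have hρ := W.ρ_pos i
  ext T hT
  rw [Measure.restrict_apply hT, W.nu_eq_nui i (hT.inter measurableSet_closedBall)
    (inter_subset_right.trans (closedBall_subset_closedBall (by linarith)))]
  apply measure_congr
  filter_upwards [W.nui_ae' i] with y hy
  apply propext
  exact ⟨fun h => h.1, fun h => ⟨h, hy⟩⟩

theorem GG_nui (i : I) {δ m e l : ℝ} {v : Eu n} (hδ : 0 < δ) (hv : ‖v‖ + δ ≤ W.ρ i)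
    (he : 0 < e) (hl : 0 < l) (hm0 : 0 < m) (hm : W.ρ i ≤ m ∨ 2 * l ≤ m) :
    ‖GG n (W.nui i) e l (W.x i + W.ι v)‖ ≤ C * 10 ^ n * (m / δ) ^ n := by
  have hC := W.C_pos
  have hu := uvol_pos n
  have h1 := disc_local W.ι (W.x i) hδ hv he hl hm0 hm
  have h2 : (W.a i).toReal ≤ C * 10 ^ n / uvol n :=
    ENNReal.toReal_le_of_le_ofReal (by positivity) (W.a_le i)
  unfold GG at h1 ⊢
  rw [nui, integral_smul_measure, norm_smul, Real.norm_of_nonneg ENNReal.toReal_nonneg]
  refine (mul_le_mul h2 h1 (norm_nonneg _) (by positivity)).trans (le_of_eq ?_)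
  rw [div_pow]; field_simp

/-- raising the regularisation scale to the size of the disc -/
theorem raise {Kg : ℝ} (hKg : 0 < Kg)
    (hGT : ∀ (ν : Measure (Eu d)), UpReg n (C * (1 + 12 ^ n + 20 ^ n)) ν →
      ∀ (x : Eu d) (e l : ℝ), 0 < e → 0 < l → ‖GG n ν e l x - Tr n ν e l x‖ ≤ Kg)
    (i : I) {δ m e l : ℝ} {v : Eu n} (hδ : 0 < δ) (hv : ‖v‖ + δ ≤ W.ρ i)
    (he : 0 < e) (hl : 0 < l) (hm0 : 0 < m) (hm : W.ρ i ≤ m ∨ 2 * l ≤ m) :
    ‖GG n W.nu e l (W.x i + W.ι v) - GG n W.nu (max e (W.ρ i)) l (W.x i + W.ι v)‖ ≤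
      2 * Kg + 2 * (C * 10 ^ n * (m / δ) ^ n) := by
  have hC := W.C_pos
  have hρ := W.ρ_pos i
  rcases le_total (W.ρ i) e with h | h
  · rw [max_eq_left h, sub_self, norm_zero]; positivity
  rw [max_eq_right h]
  have l1 := W.nu_up.isLocallyFiniteMeasure
  set y := W.x i + W.ι v with hy
  set S := closedBall (W.x i) (W.ρ i) with hS
  have hSm : MeasurableSet S := measurableSet_closedBall
  have split : ∀ e' : ℝ, 0 < e' → GG n W.nu e' l y =
      GG n (W.nui i) e' l y + GG n (W.nu.restrict Sᶜ) e' l y := by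
    intro e' he'
    rw [← W.nu_restrict i]
    unfold GG
    rw [integral_add_compl hSm (integrable_kk he' hl y)]
  have hup : UpReg n (C * (1 + 12 ^ n + 20 ^ n)) (W.nu.restrict Sᶜ) :=
    UpReg.of_le W.nu_up Measure.restrict_le_self
  have h0 : (W.nu.restrict Sᶜ) (closedBall y (W.ρ i)) = 0 := by
    rw [Measure.restrict_apply measurableSet_closedBall,
      W.nu_eq_nui i (measurableSet_closedBall.inter hSm.compl)]
    · apply W.nui_zero
      rintro p ⟨-, hp⟩
      rw [hS, mem_compl_iff, mem_closedBall, not_le] at hp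
      exact hp
    · rintro p ⟨hp, -⟩
      rw [mem_closedBall] at hp ⊢
      have h1 := dist_triangle p y (W.x i)
      rw [hy, dist_emb] at h1
      rw [hy] at hp
      linarith
  have h1 := hGT _ hup y e l he hl
  have h2 := hGT _ hup y (W.ρ i) l hρ hl
  rw [Tr_congr h h0] at h1
  have h3 := W.GG_nui i hδ hv he hl hm0 hm
  have h4 := W.GG_nui i hδ hv hρ hl hm0 hm
  rw [split e he, split (W.ρ i) hρ]
  have e1 : GG n (W.nui i) e l y + GG n (W.nu.restrict Sᶜ) e l y -
      (GG n (W.nui i) (W.ρ i) l y + GG n (W.nu.restrict Sᶜ) (W.ρ i) l y) =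
      (GG n (W.nui i) e l y - GG n (W.nui i) (W.ρ i) l y) +
      ((GG n (W.nu.restrict Sᶜ) e l y - Tr n (W.nu.restrict Sᶜ) (W.ρ i) l y) -
       (GG n (W.nu.restrict Sᶜ) (W.ρ i) l y - Tr n (W.nu.restrict Sᶜ) (W.ρ i) l y)) := by abel
  rw [e1]
  have h5 := norm_sub_le (GG n (W.nui i) e l y) (GG n (W.nui i) (W.ρ i) l y)
  have h6 := norm_sub_le (GG n (W.nu.restrict Sᶜ) e l y - Tr n (W.nu.restrict Sᶜ) (W.ρ i) l y)
    (GG n (W.nu.restrict Sᶜ) (W.ρ i) l y - Tr n (W.nu.restrict Sᶜ) (W.ρ i) l y)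
  refine (norm_add_le _ _).trans ?_
  linarith

end WD

end Vale.Agent.P120.MX

end

section

/-!
Weak testing of the new measure, and big pieces of Lipschitz images covering the compact set.
-/

open MeasureTheory Metric Set Filter Topology
open scoped ENNReal NNReal

namespace Vale.Agent.P120.MX

variable {n d : ℕ}

namespace WD

variable {c C a₀ r : ℝ} {I : Type} (W : WD n d c C a₀ r I)

open Classical in
/-- `L^1` control of the transforms of the old measure -/
def Ctl (K₀ : ℝ) : Prop :=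
  ∀ (w : Eu d) (l e : ℝ), 0 < l → 0 < e →
    ∫⁻ y in closedBall w (2 * l), ‖GG n W.tot e l y‖ₑ ∂W.μF ≤ ENNReal.ofReal (K₀ * l ^ n) ∧
    ∑' i, (if W.ρ i ≤ l ∧ dist (W.x i) w ≤ 3 * l then W.σ i univ else 0) *
      ‖GG n W.tot (max e (W.ρ i)) l (W.x i)‖ₑ ≤ ENNReal.ofReal (K₀ * l ^ n)

open Classical in
/-- width of the rim -/
noncomputable def rim (l : ℝ) (N : ℕ) (i : I) : ℝ := if W.ρ i ≤ 2 * l then W.ρ i / N else l / N

theorem rim_sum {w : Eu d} {l : ℝ} (hl : 0 < l) {N : ℕ} (hN : 1 ≤ N) :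
    ∑' i, W.nui i ({y | W.ρ i - W.rim l N i < dist y (W.x i)} ∩ closedBall w (2 * l)) ≤
      ENNReal.ofReal ((n * C * 24 ^ n + C * 100 ^ n) / N * l ^ n) := by
  classical
  have hC := W.C_pos
  have hu := uvol_pos n
  have hN0 : (0 : ℝ) < N := by exact_mod_cast hN
  have hN1 : (1 : ℝ) ≤ N := by exact_mod_cast hN
  have h1 : ∀ i, W.nui i ({y | W.ρ i - W.rim l N i < dist y (W.x i)} ∩ closedBall w (2 * l)) ≤
      (if dist (W.x i) w + 10 * W.ρ i ≤ 24 * l then W.σ i univ else 0) *
        ENNReal.ofReal (n * (1 / N)) +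
      (if dist (W.x i) w ≤ W.ρ i + 2 * l ∧ 2 * l ≤ W.ρ i then
        ENNReal.ofReal (C * 100 ^ n * l ^ n / N) else 0) := by
    intro i
    have hρ := W.ρ_pos i
    by_cases h : dist (W.x i) w ≤ W.ρ i + 2 * l
    · by_cases h' : W.ρ i ≤ 2 * l
      · refine le_add_right ?_
        rw [if_pos (by linarith), ← W.nui_univ, nui_apply, nui_apply, mul_assoc]
        apply mul_le_mul_right
        rw [mul_comm (disc W.ι (W.x i) (W.ρ i) univ)]
        refine le_trans (measure_mono ?_) (disc_rim W.ι (W.x i) hρ (κ := 1 / N) (by positivity)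
          (by rw [div_le_one hN0]; exact hN1))
        rintro y ⟨hy, -⟩
        rw [mem_ofPred_eq, rim, if_pos h'] at hy
        rw [mem_ofPred_eq]
        have : (1 - 1 / N) * W.ρ i = W.ρ i - W.ρ i / N := by ring
        rwa [this]
      · refine le_add_left ?_
        push Not at h'
        rw [if_pos ⟨h, h'.le⟩, nui_apply, rim, if_neg (not_le.2 h')]
        refine (mul_le_mul' (W.a_le i) (disc_rim_big W.ι (W.x i) w hl h'.le hN)).trans
          (le_of_eq ?_)
        rw [← ENNReal.ofReal_mul (by positivity)]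
        congr 1
        rw [show (100 : ℝ) ^ n = 10 ^ n * 10 ^ n by rw [← mul_pow]; norm_num]
        field_simp
    · rw [W.nui_zero i]
      · exact bot_le
      · rintro y ⟨-, hy⟩
        rw [mem_closedBall] at hy
        have := dist_triangle_left (W.x i) w y
        push Not at h
        linarith
  refine (ENNReal.tsum_le_tsum h1).trans ?_
  rw [ENNReal.tsum_add, ENNReal.tsum_mul_right]
  have h3 := W.tsum_mass_le (p := fun i => dist (W.x i) w + 10 * W.ρ i ≤ 24 * l) (w := w)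
    (R := 24 * l) (by positivity) (fun i hi => hi)
  have h4 := tsum_unique_le (p := fun i => dist (W.x i) w ≤ W.ρ i + 2 * l ∧ 2 * l ≤ W.ρ i)
    (fun i j hi hj => W.big_unique hi hj) (ENNReal.ofReal (C * 100 ^ n * l ^ n / N))
  refine (add_le_add (mul_le_mul_left h3 _) h4).trans (le_of_eq ?_)
  rw [← ENNReal.ofReal_mul (by positivity), ← ENNReal.ofReal_add (by positivity) (by positivity)]
  congr 1
  rw [mul_pow]; field_simp

end WD

theorem enorm_tri (u v : Eu d) : ‖u‖ₑ ≤ ‖u - v‖ₑ + ‖v‖ₑ := by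
  calc ‖u‖ₑ = ‖(u - v) + v‖ₑ := by rw [sub_add_cancel]
    _ ≤ _ := enorm_add_le _ _

theorem cancel_le {t K : ℝ} (ht : 0 ≤ t) (hK : 0 ≤ K) {u : Eu d} {b : ℝ≥0∞} (h1 : K + t < ‖u‖)
    (h2 : ‖u‖ₑ ≤ ENNReal.ofReal K + b) : ENNReal.ofReal t ≤ b := by
  have h3 : ENNReal.ofReal K + ENNReal.ofReal t ≤ ‖u‖ₑ := by
    rw [← ENNReal.ofReal_add hK ht, ← ofReal_norm]
    exact ENNReal.ofReal_le_ofReal h1.le
  exact (ENNReal.add_le_add_iff_left ENNReal.ofReal_ne_top).1 (h3.trans h2)

/-- **weak testing of the new measure** -/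
theorem weak_nu (n : ℕ) (hn : 1 ≤ n) (C : ℝ) (hC : 0 < C) (K₀ α : ℝ) (hK₀ : 0 ≤ K₀) (hα : 0 < α) :
    ∃ lam : ℝ, ∀ (d : ℕ) (c a₀ r : ℝ) (I : Type) [Countable I] (W : WD n d c C a₀ r I),
      W.Ctl K₀ → Weak3 n α lam W.nu := by
  classical
  set C' : ℝ := C * (1 + 12 ^ n + 20 ^ n) with hC'
  have hC'0 : 0 < C' := by positivity
  obtain ⟨K, hK, hsub⟩ := kk_sub_le n
  obtain ⟨K₂, hK₂, hfar⟩ := lintegral_far n 1 le_rfl C' hC'0
  obtain ⟨Kg, hKg, hGT⟩ := G_sub_T n hn C' hC'0
  obtain ⟨Km, hKm, hmove⟩ := G_move n C hC 1 one_pos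
  obtain ⟨N, hN⟩ := exists_nat_ge (max 1 ((n * C * 24 ^ n + C * 100 ^ n) / (α / 2)))
  have hN1 : (1 : ℝ) ≤ N := (le_max_left _ _).trans hN
  have hN1' : 1 ≤ N := by exact_mod_cast hN1
  have hN0 : (0 : ℝ) < N := by linarith
  have hN2 : (n * C * 24 ^ n + C * 100 ^ n) / N ≤ α / 2 := by
    have := (le_max_right _ _).trans hN
    rw [div_le_iff₀ (by positivity)] at this
    rw [div_le_iff₀ hN0]
    linarith
  set Kh : ℝ := K * K₂ * C * 8 ^ n with hKh
  set t : ℝ := (2 * K₀ + Kh) / (α / 2) with ht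
  have hKh0 : 0 < Kh := by positivity
  have ht0 : 0 < t := by positivity
  set KN : ℝ := 2 * Kg + 2 * (C * 10 ^ n * (2 * N) ^ n) + C' * 2 ^ n + 2 * C * 62 ^ n + Km
    with hKN
  have hKN0 : 0 < KN := by positivity
  refine ⟨KN + t, ?_⟩
  intro d c a₀ r I _ W hctl w l e hl he
  obtain ⟨hF, hI⟩ := hctl w l e hl he
  have l1 := W.nu_up.isLocallyFiniteMeasure
  have l2 := W.tot_up.isLocallyFiniteMeasure
  set S := {x | dist x w ≤ 2 * l ∧ KN + t < ‖GG n W.nu e l x‖} with hS
  have hSm : MeasurableSet S :=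
    (measurableSet_closedBall (x := w) (ε := 2 * l)).inter
      (isOpen_lt continuous_const (continuous_GG (n := n) (ν := W.nu) he hl).norm).measurableSet
  set h := W.hh K w l with hh
  have hhm : Measurable h := W.measurable_hh K w l
  set f₀ : Eu d → ℝ≥0∞ := (closedBall w (2 * l)).indicator fun y => ‖GG n W.tot e l y‖ₑ with hf₀
  have hf₀m : Measurable f₀ :=
    (continuous_GG he hl).measurable.enorm.indicator measurableSet_closedBall
  set b : I → ℝ≥0∞ := fun i => if W.ρ i ≤ l ∧ dist (W.x i) w ≤ 3 * l then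
    ‖GG n W.tot (max e (W.ρ i)) l (W.x i)‖ₑ else 0 with hb
  -- the part on `F`
  have hA : W.μF S ≤ (∫⁻ y, f₀ y ∂W.μF + ∫⁻ y, h y ∂W.μF) * ENNReal.ofReal t⁻¹ := by
    have := markov (μ := W.μF) (S := S) (Bad := ∅) (f := fun y => f₀ y + h y)
      (hf₀m.add hhm) ht0 ?_
    · rwa [measure_empty, zero_add, lintegral_add_left hf₀m] at this
    filter_upwards [W.μF_ae] with y hy hyS
    right
    have h1 := W.compare hK (hsub d) he hl hyS.1
      (by rw [infDist_zero_of_mem hy]; positivity)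
    refine cancel_le ht0.le hKN0.le hyS.2 ?_
    refine (enorm_tri _ (GG n W.tot e l y)).trans ((add_le_add h1 le_rfl).trans ?_)
    have h2 : f₀ y = ‖GG n W.tot e l y‖ₑ := by
      rw [hf₀, indicator_of_mem (mem_closedBall.2 hyS.1)]
    have h3 : ENNReal.ofReal (2 * C * 62 ^ n) ≤ ENNReal.ofReal KN := by
      apply ENNReal.ofReal_le_ofReal
      have : 0 ≤ 2 * Kg + 2 * (C * 10 ^ n * (2 * N) ^ n) + C' * 2 ^ n + Km := by positivity
      linarith
    rw [← h2, add_assoc, add_comm (W.hh K w l y)]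
    exact add_le_add h3 le_rfl
  -- the discs
  have hB : ∀ i, W.nui i S ≤
      W.nui i ({y | W.ρ i - W.rim l N i < dist y (W.x i)} ∩ closedBall w (2 * l)) +
      (∫⁻ y, h y ∂W.nui i + b i * W.σ i univ) * ENNReal.ofReal t⁻¹ := by
    intro i
    have hρ := W.ρ_pos i
    have := markov (μ := W.nui i) (S := S) (Bad := {y | W.ρ i - W.rim l N i < dist y (W.x i)} ∩
      closedBall w (2 * l)) (f := fun y => h y + b i) (hhm.add_const (b i)) ht0 ?_
    · rwa [lintegral_add_left hhm, lintegral_const, W.nui_univ] at this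
    filter_upwards [W.nui_ae i] with y hy hyS
    obtain ⟨v, hv, rfl⟩ := hy
    by_cases hbad : W.ρ i - W.rim l N i < dist (W.x i + W.ι v) (W.x i)
    · exact Or.inl ⟨hbad, hyS.1⟩
    right
    rw [dist_emb, not_lt] at hbad
    set y := W.x i + W.ι v with hy
    set e' := max e (W.ρ i) with he'
    have he'0 : 0 < e' := lt_max_of_lt_left he
    have hρe : W.ρ i ≤ e' := le_max_right _ _
    have hyx : dist y (W.x i) ≤ W.ρ i := by rw [hy, dist_emb]; exact hv
    have h1 : ‖GG n W.nu e l y - GG n W.nu e' l y‖ ≤ 2 * Kg + 2 * (C * 10 ^ n * (2 * N) ^ n) := by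
      by_cases hs : W.ρ i ≤ 2 * l
      · rw [WD.rim, if_pos hs] at hbad
        have h2 := W.raise hKg (hGT d) i (δ := W.ρ i / N) (m := W.ρ i) (v := v) (by positivity)
          (by linarith) he hl hρ (Or.inl le_rfl)
        refine h2.trans ?_
        have h3 : W.ρ i / (W.ρ i / N) ≤ 2 * N := by
          rw [show W.ρ i / (W.ρ i / N) = N by field_simp]; linarith
        have h4 := pow_le_pow_left₀ (by positivity) h3 n
        have h5 : 0 < C * 10 ^ n := by positivity
        nlinarith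
      · rw [WD.rim, if_neg hs] at hbad
        have h2 := W.raise hKg (hGT d) i (δ := l / N) (m := 2 * l) (v := v) (by positivity)
          (by linarith) he hl (by positivity) (Or.inr le_rfl)
        rwa [show 2 * l / (l / N) = 2 * N by field_simp] at h2
    have h2 : ‖GG n W.nu e' l y‖ₑ ≤
        ENNReal.ofReal (C' * 2 ^ n + 2 * C * 62 ^ n + Km) + (h y + b i) := by
      by_cases hle : l ≤ e'
      · refine le_add_right (enorm_le_of_norm ((GG_big hC'0 W.nu_up hl hle y).trans ?_))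
        have : 0 ≤ 2 * C * 62 ^ n + Km := by positivity
        linarith
      · push Not at hle
        have h3 : infDist y W.F ≤ 41 * e' := by
          have := infDist_le_infDist_add_dist (x := y) (y := W.x i) (s := W.F)
          rw [W.ρ_eq] at this
          linarith
        have h4 := W.compare hK (hsub d) he'0 hl hyS.1 h3
        have h5 := enorm_le_of_norm (hmove d W.tot W.tot_up y (W.x i) e' l he'0 hl (by linarith))
        have h6 : b i = ‖GG n W.tot e' l (W.x i)‖ₑ := by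
          have h7 := dist_triangle_left (W.x i) w y
          have h8 : dist y w ≤ 2 * l := hyS.1
          simp only [hb]
          rw [if_pos ⟨by linarith, by linarith⟩]
        refine (enorm_tri _ (GG n W.tot e' l y)).trans ?_
        refine (add_le_add h4 ((enorm_tri _ (GG n W.tot e' l (W.x i))).trans
          (add_le_add h5 le_rfl))).trans ?_
        rw [← h6, ENNReal.ofReal_add (by positivity) hKm.le,
          ENNReal.ofReal_add (by positivity) (by positivity)]
        calc ENNReal.ofReal (2 * C * 62 ^ n) + W.hh K w l y + (ENNReal.ofReal Km + b i)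
            = 0 + ENNReal.ofReal (2 * C * 62 ^ n) + ENNReal.ofReal Km + (h y + b i) := by
              rw [hh]; ring
          _ ≤ _ := by gcongr; exact bot_le
    refine cancel_le ht0.le hKN0.le hyS.2 ?_
    refine (enorm_tri _ (GG n W.nu e' l y)).trans ?_
    refine (add_le_add (enorm_le_of_norm h1) h2).trans (le_of_eq ?_)
    rw [← add_assoc, ← ENNReal.ofReal_add (by positivity) (by positivity)]
    congr 2
    rw [hKN]; ring
  -- summation
  have hsum : W.nu S ≤
      ∑' i, W.nui i ({y | W.ρ i - W.rim l N i < dist y (W.x i)} ∩ closedBall w (2 * l)) +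
      (∫⁻ y, f₀ y ∂W.μF + ∫⁻ y, h y ∂W.nu + ∑' i, b i * W.σ i univ) * ENNReal.ofReal t⁻¹ := by
    rw [WD.nu, Measure.add_apply, Measure.sum_apply _ hSm, lintegral_add_measure,
      lintegral_sum_measure]
    refine (add_le_add hA (ENNReal.tsum_le_tsum hB)).trans (le_of_eq ?_)
    rw [ENNReal.tsum_add, ENNReal.tsum_mul_right, ENNReal.tsum_add]
    ring
  have g1 : ∫⁻ y, f₀ y ∂W.μF ≤ ENNReal.ofReal (K₀ * l ^ n) := by
    rw [hf₀, lintegral_indicator measurableSet_closedBall]; exact hF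
  have g2 : ∫⁻ y, h y ∂W.nu ≤ ENNReal.ofReal (Kh * l ^ n) :=
    W.lintegral_hh hK hK₂ (hfar d W.nu W.nu_up) w hl
  have g3 : ∑' i, b i * W.σ i univ ≤ ENNReal.ofReal (K₀ * l ^ n) := by
    refine le_trans (le_of_eq (tsum_congr fun i => ?_)) hI
    simp only [hb]
    split_ifs
    · rw [mul_comm]
    · rw [zero_mul, zero_mul]
  have g4 := W.rim_sum (w := w) hl hN1'
  refine hsum.trans ((add_le_add g4 (mul_le_mul_left (add_le_add (add_le_add g1 g2) g3) _)).trans ?_)
  rw [← ENNReal.ofReal_add (by positivity) (by positivity),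
    ← ENNReal.ofReal_add (by positivity) (by positivity), ← ENNReal.ofReal_mul (by positivity),
    ← ENNReal.ofReal_add (by positivity) (by positivity)]
  apply ENNReal.ofReal_le_ofReal
  have g5 : (K₀ * l ^ n + Kh * l ^ n + K₀ * l ^ n) * t⁻¹ = α / 2 * l ^ n := by
    rw [ht]; field_simp; ring
  have g6 := mul_le_mul_of_nonneg_right hN2 (show 0 ≤ l ^ n by positivity)
  linarith

/-- **the compact set is covered by a Lipschitz image up to small measure** -/
theorem cover_F (n d : ℕ) (hn : 1 ≤ n) (hnd : n ≤ d) (c C a₀ K₀ η : ℝ) (hc : 0 < c) (hC : 0 < C)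
    (ha : 0 < a₀) (hK₀ : 0 ≤ K₀) (hη : 0 < η) :
    ∃ M : ℝ≥0, ∀ (r : ℝ) (I : Type) [Countable I] (W : WD n d c C a₀ r I), W.Ctl K₀ →
      ∃ g : Eu n → Eu d, LipschitzWith M g ∧
        W.μF (g '' ball 0 r)ᶜ ≤ ENNReal.ofReal (η * r ^ n) := by
  have hcl := WD.cl_pos (n := n) hc ha
  obtain ⟨α, hα, H⟩ := big_of_weak3 n d hn hnd (WD.cl n c a₀ / 2 ^ n / 5 ^ n)
    (C * (1 + 12 ^ n + 20 ^ n)) (by positivity) (by positivity)
  obtain ⟨lam, hlam⟩ := weak_nu n hn C hC K₀ α hK₀ hα
  obtain ⟨M, hM⟩ := H lam (η / 3 ^ n) (by positivity)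
  refine ⟨M * 3, fun r I _ W hW => ?_⟩
  have hr := W.r_pos
  obtain ⟨p, hp⟩ := W.F_ne
  obtain ⟨g, hg, hmeas⟩ := hM W.nu (5 * r) (by positivity) W.supp_dist W.nu_AR
    (hlam d c a₀ r I W hW) p (W.F_sub_supp hp) (3 * r) (by positivity) (by linarith)
  refine ⟨fun v => g ((3 : ℝ) • v), ?_, ?_⟩
  · refine hg.comp (LipschitzWith.of_dist_le_mul fun v w => ?_)
    rw [dist_smul₀, Real.norm_of_nonneg (by norm_num : (0 : ℝ) ≤ 3)]
    norm_num
  · have hle : W.μF ((fun v => g ((3 : ℝ) • v)) '' ball 0 r)ᶜ ≤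
        W.μF (ball p (3 * r) \ g '' ball 0 (3 * r)) := by
      apply measure_mono_ae
      filter_upwards [W.μF_ae] with y hy hy2
      refine ⟨?_, ?_⟩
      · have h1 := mem_closedBall.1 (W.F_sub hy)
        have h2 := mem_closedBall.1 (W.F_sub hp)
        have h3 := dist_triangle_right y p W.z
        rw [mem_ball]
        linarith
      · rintro ⟨v, hv, rfl⟩
        refine hy2 ⟨(3 : ℝ)⁻¹ • v, ?_, ?_⟩
        · rw [mem_ball, dist_zero_right] at hv ⊢
          rw [norm_smul, Real.norm_of_nonneg (by norm_num : (0 : ℝ) ≤ 3⁻¹)]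
          linarith
        · show g ((3 : ℝ) • (3 : ℝ)⁻¹ • v) = g v
          rw [smul_smul, mul_inv_cancel₀ (by norm_num), one_smul]
    refine hle.trans ((W.μF_le_nu _).trans (hmeas.trans (ENNReal.ofReal_le_ofReal (le_of_eq ?_))))
    rw [mul_pow]
    field_simp

end Vale.Agent.P120.MX

end
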