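import Vale.Agent.N120.C
import Mathlib.MeasureTheory.Covering.Vitali
import Mathlib.Analysis.Normed.Module.Ball.Pointwise

section

/-!
Regular measures: the points with bounded truncations are covered by Lipschitz images.
-/

open MeasureTheory Metric Set Filter Topology
open scoped ENNReal NNReal

namespace Vale.Agent.P120.MX

variable {n d : ℕ}

/-- Whitney type selection of centres -/
theorem vitali (F G : Set (Eu d)) (r : ℝ)
    (hG : ∀ x ∈ G, 0 < infDist x F ∧ infDist x F ≤ r) :
    ∃ u ⊆ G, u.Countable ∧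
      (∀ a ∈ u, ∀ b ∈ u, a ≠ b → 2 * (infDist a F / 40) + 2 * (infDist b F / 40) < dist a b) ∧
      ∀ a ∈ G, ∃ b ∈ u, dist a b ≤ 10 * (infDist b F / 40) := by
  obtain ⟨u, huG, hdis, hcov⟩ := Vitali.exists_disjoint_subfamily_covering_enlargement_closedBall
    G (fun x => x) (fun x => infDist x F / 20) (r / 20)
    (fun a ha => by linarith [(hG a ha).2]) 5 (by norm_num)
  refine ⟨u, huG, ?_, ?_, ?_⟩
  · refine hdis.countable_of_nonempty_interior fun a ha => ⟨a, ?_⟩
    have := (hG a (huG ha)).1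
    exact mem_interior_iff_mem_nhds.2 (closedBall_mem_nhds a (by positivity))
  · intro a ha b hb hab
    have h1 := hdis ha hb hab
    have h2 := (hG a (huG ha)).1
    have h3 := (hG b (huG hb)).1
    rw [Function.onFun, disjoint_closedBall_closedBall_iff (by positivity) (by positivity)] at h1
    linarith
  · intro a ha
    obtain ⟨b, hb, h⟩ := hcov a ha
    have h2 := (hG a ha).1
    have h3 := mem_closedBall.1 (h (mem_closedBall_self (by positivity)))
    exact ⟨b, hb, by linarith⟩

/-- a partition subordinate to a countable family of sets with disjoint cores -/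
theorem exists_partition {I : Type} [Countable I] (B U : I → Set (Eu d))
    (hB : ∀ i, MeasurableSet (B i)) (hU : ∀ i, MeasurableSet (U i)) (hBU : ∀ i, B i ⊆ U i)
    (hdis : Pairwise (Function.onFun Disjoint B)) :
    ∃ P : I → Set (Eu d), (∀ i, MeasurableSet (P i)) ∧ (∀ i, B i ⊆ P i) ∧ (∀ i, P i ⊆ U i) ∧
      Pairwise (Function.onFun Disjoint P) ∧ ∀ i, U i ⊆ ⋃ j, P j := by
  classical
  obtain ⟨f, hf⟩ := exists_injective_nat I
  refine ⟨fun i => B i ∪ ((U i \ ⋃ j, B j) \ ⋃ j, ⋃ (_ : f j < f i), U j), ?_, ?_, ?_, ?_, ?_⟩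
  · intro i
    exact (hB i).union (((hU i).diff (MeasurableSet.iUnion hB)).diff
      (MeasurableSet.iUnion fun j => MeasurableSet.iUnion fun _ => hU j))
  · exact fun i => subset_union_left
  · rintro i y (hy | hy)
    · exact hBU i hy
    · exact hy.1.1
  · intro i j hij
    rw [Function.onFun, Set.disjoint_left]
    rintro y (hi | hi) (hj | hj)
    · exact Set.disjoint_left.1 (hdis hij) hi hj
    · exact hj.1.2 (mem_iUnion.2 ⟨i, hi⟩)
    · exact hi.1.2 (mem_iUnion.2 ⟨j, hj⟩)
    · rcases lt_or_gt_of_ne (fun h => hij (hf h)) with h | h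
      · exact hj.2 (mem_iUnion₂.2 ⟨i, h, hi.1.1⟩)
      · exact hi.2 (mem_iUnion₂.2 ⟨j, h, hj.1.1⟩)
  · intro i y hy
    by_cases hb : y ∈ ⋃ j, B j
    · obtain ⟨j, hj⟩ := mem_iUnion.1 hb
      exact mem_iUnion.2 ⟨j, Or.inl hj⟩
    · have hex : ∃ k : ℕ, ∃ j, f j = k ∧ y ∈ U j := ⟨f i, i, rfl, hy⟩
      obtain ⟨j, hj1, hj2⟩ := Nat.find_spec hex
      refine mem_iUnion.2 ⟨j, Or.inr ⟨⟨hj2, hb⟩, fun h => ?_⟩⟩
      obtain ⟨k, hk1, hk2⟩ := mem_iUnion₂.1 h
      exact Nat.find_min hex (hj1 ▸ hk1) ⟨k, rfl, hk2⟩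

/-- pointwise bounds on the compact set give the `L^1` control -/
theorem ctl_of_bound (n : ℕ) (C : ℝ) (hC : 0 < C) (L : ℝ) (hL : 0 ≤ L) : ∃ K₀ : ℝ, 0 ≤ K₀ ∧
    ∀ (d : ℕ) (c a₀ r : ℝ) (I : Type) (W : WD n d c C a₀ r I),
      (∀ p ∈ W.F, ∀ e l : ℝ, 0 < e → 0 < l → ‖GG n W.tot e l p‖ ≤ L) → W.Ctl K₀ := by
  classical
  obtain ⟨Km, hKm, hmove⟩ := G_move n C hC 40 (by norm_num)
  refine ⟨(L + Km) * C * 13 ^ n, by positivity, fun d c a₀ r I W h w l e hl he => ⟨?_, ?_⟩⟩
  · have h1 : ∫⁻ y in closedBall w (2 * l), ‖GG n W.tot e l y‖ₑ ∂W.μF ≤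
        ∫⁻ _ in closedBall w (2 * l), ENNReal.ofReal L ∂W.μF := by
      apply lintegral_mono_ae
      filter_upwards [ae_restrict_of_ae W.μF_ae] with y hy using enorm_le_of_norm (h y hy e l he hl)
    refine h1.trans ?_
    rw [setLIntegral_const]
    refine (mul_le_mul_right ((W.μF_le_tot _).trans (W.tot_up w _ (by positivity))) _).trans ?_
    rw [← ENNReal.ofReal_mul hL]
    apply ENNReal.ofReal_le_ofReal
    have h2 : (2 * l) ^ n ≤ (13 * l) ^ n := pow_le_pow_left₀ (by positivity) (by linarith) n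
    calc L * (C * (2 * l) ^ n) ≤ (L + Km) * (C * (13 * l) ^ n) :=
          mul_le_mul (by linarith) (mul_le_mul_of_nonneg_left h2 hC.le) (by positivity)
            (by positivity)
      _ = _ := by rw [mul_pow]; ring
  · have h1 : ∀ i, (if W.ρ i ≤ l ∧ dist (W.x i) w ≤ 3 * l then W.σ i univ else 0) *
        ‖GG n W.tot (max e (W.ρ i)) l (W.x i)‖ₑ ≤
        (if W.ρ i ≤ l ∧ dist (W.x i) w ≤ 3 * l then W.σ i univ else 0) *
          ENNReal.ofReal (L + Km) := by
      intro i
      apply mul_le_mul_right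
      obtain ⟨p, hp, hpd⟩ := W.near_pt i
      have he' : 0 < max e (W.ρ i) := lt_max_of_lt_left he
      have h2 := hmove d W.tot W.tot_up (W.x i) p (max e (W.ρ i)) l he' hl
        (by linarith [le_max_right e (W.ρ i)])
      have h3 := h p hp _ l he' hl
      have h4 := norm_sub_norm_le (GG n W.tot (max e (W.ρ i)) l (W.x i))
        (GG n W.tot (max e (W.ρ i)) l p)
      exact enorm_le_of_norm (by linarith)
    refine (ENNReal.tsum_le_tsum h1).trans ?_
    rw [ENNReal.tsum_mul_right]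
    refine (mul_le_mul_left (W.tsum_mass_le (w := w) (R := 13 * l) (by positivity)
      (fun i hi => by linarith [hi.1, hi.2])) _).trans (le_of_eq ?_)
    rw [← ENNReal.ofReal_mul (by positivity)]
    congr 1
    rw [mul_pow]; ring

theorem restrict_add_sum {I : Type} [Countable I] (μ : Measure (Eu d)) {F : Set (Eu d)}
    {P : I → Set (Eu d)} (hP : ∀ i, MeasurableSet (P i))
    (hdis : Pairwise (Function.onFun Disjoint P)) (hFP : ∀ i, Disjoint F (P i)) :
    μ.restrict F + Measure.sum (fun i => μ.restrict (P i)) = μ.restrict (F ∪ ⋃ i, P i) := by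
  rw [Measure.restrict_union (disjoint_iUnion_right.2 hFP) (MeasurableSet.iUnion hP),
    Measure.restrict_iUnion hdis hP]

theorem restrict_compl_zero (μ : Measure (Eu d)) {P U : Set (Eu d)} (hU : MeasurableSet U)
    (h : P ⊆ U) : μ.restrict P Uᶜ = 0 := by
  rw [Measure.restrict_apply hU.compl]
  convert measure_empty (μ := μ)
  exact eq_empty_of_forall_notMem fun y hy => hy.1 (h hy.2)

/-- **local quantitative form** for regular measures -/
theorem point_cover (n d : ℕ) (hn : 1 ≤ n) (hnd : n ≤ d) (c C L η : ℝ) (hc : 0 < c) (hC : 0 < C)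
    (hη : 0 < η) : ∃ M : ℝ≥0, ∀ (μ : Measure (Eu d)) (D : ℝ≥0∞), AR n c C D μ →
      ∀ (x : Eu d) (r : ℝ), 0 < r → ENNReal.ofReal r ≤ D →
      ∃ g : Eu n → Eu d, LipschitzWith M g ∧
        μ ({y | y ∈ ball x r ∧ ∀ e t : ℝ, 0 < e → 0 < t → t ≤ r → ‖Tr n μ e t y‖ ≤ L} \
          g '' ball 0 r) ≤ ENNReal.ofReal (η * r ^ n) := by
  classical
  obtain ⟨Kg, hKg, hGT⟩ := G_sub_T n hn C hC
  obtain ⟨K₀, hK₀, hctl⟩ := ctl_of_bound n C hC (|L| + 3 * Kg + C * 3 ^ n) (by positivity)
  obtain ⟨M, hM⟩ := cover_F n d hn hnd c C (c * 2 ^ n) K₀ η hc hC (by positivity) hK₀ hη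
  obtain ⟨ι⟩ := exists_isometry hnd
  refine ⟨M, fun μ D har x r hr hrD => ?_⟩
  have hlf := har.isLocallyFiniteMeasure
  have hup : UpReg n C μ := har.upper
  have hsupp : ∀ᵐ y ∂μ, y ∈ μ.support := Measure.support_mem_ae
  have hlow : ∀ y ∈ μ.support, ∀ t, 0 < t → t ≤ r →
      ENNReal.ofReal (c * t ^ n) ≤ μ (ball y t) := fun y hy t ht htr =>
    har.lower y hy t ht ((ENNReal.ofReal_le_ofReal htr).trans hrD)
  set F : Set (Eu d) := closedBall x r ∩ (μ.support ∩
    ⋂ (e : ℝ) (t : ℝ) (_ : 0 < e) (_ : 0 < t) (_ : t ≤ r), {y | ‖GG n μ e t y‖ ≤ |L| + Kg})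
    with hF
  have hFc : IsCompact F := by
    refine (isCompact_closedBall x r).inter_right (Measure.isClosed_support.inter ?_)
    refine isClosed_iInter fun e => isClosed_iInter fun t => isClosed_iInter fun he =>
      isClosed_iInter fun ht => isClosed_iInter fun _ => ?_
    exact isClosed_le (continuous_GG he ht).norm continuous_const
  have hFm : MeasurableSet F := hFc.isClosed.measurableSet
  have hEF : ∀ y ∈ μ.support, y ∈ ball x r →
      (∀ e t : ℝ, 0 < e → 0 < t → t ≤ r → ‖Tr n μ e t y‖ ≤ L) → y ∈ F := by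
    intro y hy h1 h2
    refine ⟨ball_subset_closedBall h1, hy, ?_⟩
    simp only [mem_iInter, mem_ofPred_eq]
    intro e t he ht htr
    have h3 := hGT d μ hup y e t he ht
    have h4 := h2 e t he ht htr
    have h5 := norm_sub_norm_le (GG n μ e t y) (Tr n μ e t y)
    linarith [le_abs_self L]
  have hFb : ∀ y ∈ F, ∀ e t : ℝ, 0 < e → 0 < t → t ≤ r → ‖GG n μ e t y‖ ≤ |L| + Kg := by
    intro y hy e t he ht htr
    have h := hy.2.2
    simp only [mem_iInter, mem_ofPred_eq] at h
    exact h e t he ht htr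
  suffices H : ∃ g : Eu n → Eu d, LipschitzWith M g ∧
      μ.restrict F (g '' ball 0 r)ᶜ ≤ ENNReal.ofReal (η * r ^ n) by
    obtain ⟨g, hg, H⟩ := H
    refine ⟨g, hg, le_trans ?_ H⟩
    rw [Measure.restrict_apply' hFm]
    apply measure_mono_ae
    filter_upwards [hsupp] with y hy hy2
    exact ⟨hy2.2, hEF y hy hy2.1.1 hy2.1.2⟩
  rcases F.eq_empty_or_nonempty with hFe | hFne
  · refine ⟨fun _ => 0, (LipschitzWith.const 0).weaken bot_le, ?_⟩
    rw [hFe, Measure.restrict_empty]
    exact bot_le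
  obtain ⟨u, huG, hcount, hsep, hcov⟩ := vitali F
    {y | y ∈ μ.support ∧ 0 < infDist y F ∧ infDist y F ≤ r} r (fun y hy => hy.2)
  have : Countable u := hcount.to_subtype
  set ρ : u → ℝ := fun i => infDist (i : Eu d) F / 40 with hρ
  have hρ0 : ∀ i, 0 < ρ i := fun i => by
    have := (huG i.2).2.1
    simp only [hρ]; positivity
  have hρe : ∀ i : u, infDist (i : Eu d) F = 40 * ρ i := fun i => by simp only [hρ]; ring
  have hρr : ∀ i, 40 * ρ i ≤ r := fun i => by rw [← hρe]; exact (huG i.2).2.2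
  have hsep' : ∀ i j : u, i ≠ j → 2 * ρ i + 2 * ρ j < dist (i : Eu d) j := fun i j hij =>
    hsep i i.2 j j.2 fun h => hij (Subtype.ext h)
  obtain ⟨P, hPm, hBP, hPU, hPd, hUP⟩ := exists_partition
    (fun i : u => closedBall (i : Eu d) (2 * ρ i)) (fun i : u => closedBall (i : Eu d) (10 * ρ i))
    (fun _ => measurableSet_closedBall) (fun _ => measurableSet_closedBall)
    (fun i => closedBall_subset_closedBall (by linarith [hρ0 i]))
    (fun i j hij => closedBall_disjoint_closedBall (hsep' i j hij))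
  have hFP : ∀ i, Disjoint F (P i) := by
    intro i
    rw [Set.disjoint_left]
    intro y hy hy2
    have h1 := mem_closedBall.1 (hPU i hy2)
    have h2 : infDist (i : Eu d) F ≤ dist (i : Eu d) y := infDist_le_dist_of_mem hy
    rw [hρe, dist_comm] at h2
    linarith [hρ0 i]
  have htot := restrict_add_sum μ hPm hPd hFP
  set Y := F ∪ ⋃ i, P i with hY
  have hYm : MeasurableSet Y := hFm.union (MeasurableSet.iUnion hPm)
  have hnear : ∀ p ∈ F, ∀ y ∈ μ.support, dist y p ≤ r → y ∈ Y := by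
    intro p hp y hy hyp
    have h1 : infDist y F ≤ r := (infDist_le_dist_of_mem hp).trans hyp
    rcases eq_or_lt_of_le (infDist_nonneg (x := y) (s := F)) with h | h
    · exact Or.inl ((hFc.isClosed.mem_iff_infDist_zero hFne).2 h.symm)
    · obtain ⟨b, hb, hyb⟩ := hcov y ⟨hy, h, h1⟩
      exact Or.inr (hUP ⟨b, hb⟩ (mem_closedBall.2 hyb))
  have hres : ∀ p ∈ F, ∀ S : Set (Eu d), MeasurableSet S → S ⊆ closedBall p r →
      (μ.restrict Y).restrict S = μ.restrict S := by
    intro p hp S hS hSp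
    rw [Measure.restrict_restrict hS]
    apply Measure.restrict_congr_set
    filter_upwards [hsupp] with y hy
    apply propext
    exact ⟨fun h => h.1, fun h => ⟨h, hnear p hp y hy (mem_closedBall.1 (hSp h))⟩⟩
  let W : WD n d c C (c * 2 ^ n) r u :=
    { ι := ι
      F := F
      z := x
      x := fun i => i
      ρ := ρ
      μF := μ.restrict F
      σ := fun i => μ.restrict (P i)
      c_pos := hc
      C_pos := hC
      a_pos := by positivity
      r_pos := hr
      F_cpt := hFc
      F_ne := hFne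
      F_sub := inter_subset_left
      ρ_pos := hρ0
      ρ_eq := hρe
      ρ_le := hρr
      sep := hsep'
      μF_supp := restrict_compl_zero μ hFm subset_rfl
      σ_supp := fun i => restrict_compl_zero μ measurableSet_closedBall (hPU i)
      mass_lo := fun i => by
        rw [Measure.restrict_apply_univ]
        have h1 := hlow i (huG i.2).1 (2 * ρ i) (by linarith [hρ0 i]) (by linarith [hρr i, hρ0 i])
        rw [mul_pow, ← mul_assoc] at h1
        exact h1.trans (measure_mono (ball_subset_closedBall.trans (hBP i)))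
      up := by
        rw [htot]
        exact UpReg.of_le hup Measure.restrict_le_self
      low := fun y hy t ht htr => by
        rw [htot, ← Measure.restrict_apply_univ, hres y hy _ measurableSet_ball
          (ball_subset_closedBall.trans (closedBall_subset_closedBall htr)),
          Measure.restrict_apply_univ]
        exact hlow y hy.2.1 t ht htr }
  have hWtot : W.tot = μ.restrict Y := htot
  refine hM r u W (hctl d c _ r u W fun p hp e l he hl => ?_)
  have hTr : ∀ t, 0 < t → t ≤ r → ‖Tr n W.tot e t p‖ ≤ |L| + 2 * Kg := by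
    intro t ht htr
    have h1 : Tr n W.tot e t p = Tr n μ e t p := by
      unfold Tr
      rw [hWtot, hres p hp _ measurableSet_closedBall (closedBall_subset_closedBall htr)]
    have h2 := hGT d μ hup p e t he ht
    have h3 := hFb p hp e t he ht htr
    have h4 := norm_sub_norm_le (Tr n μ e t p) (GG n μ e t p)
    rw [norm_sub_rev] at h4
    rw [h1]
    linarith
  have h1 := hGT d W.tot W.tot_up p e l he hl
  have h2 := norm_sub_norm_le (GG n W.tot e l p) (Tr n W.tot e l p)
  have h3 : 0 ≤ C * 3 ^ n := by positivity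
  rcases le_total l r with h | h
  · linarith [hTr l hl h]
  · have h4 := Tr_large (n := n) (x := p) he hr h (by positivity) W.tot_univ
    have h5 : (r ^ n)⁻¹ * (C * (3 * r) ^ n) = C * 3 ^ n := by rw [mul_pow]; field_simp
    have h6 := norm_sub_norm_le (Tr n W.tot e l p) (Tr n W.tot e r p)
    linarith [hTr r hr le_rfl]

end Vale.Agent.P120.MX

end

section

/-!
Measures that are not regular: `L^2` boundedness and lower bounds on part of the support.
-/

open MeasureTheory Metric Set Filter Topology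
open scoped ENNReal NNReal

namespace Vale.Agent.P120.MX

variable {n d : ℕ}

theorem integrable_GG {ν σ : Measure (Eu d)} [IsFiniteMeasure σ] {C : ℝ} (hC : 0 < C)
    (hν : UpReg n C ν) {e l : ℝ} (he : 0 < e) (hl : 0 < l) : Integrable (GG n ν e l) σ := by
  have hlf := hν.isLocallyFiniteMeasure
  refine Integrable.of_bound (continuous_GG he hl).aestronglyMeasurable
    ((e ^ n)⁻¹ * (C * (2 * l) ^ n)) (Eventually.of_forall fun x => ?_)
  apply norm_le_of_enorm (by positivity)
  refine (enorm_integral_le_lintegral_enorm _).trans ?_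
  refine enorm_integral_le_ball hν (x := x) (by positivity) (by positivity)
    (Eventually.of_forall fun w => ?_)
  by_cases hw : w ∈ closedBall x (2 * l)
  · rw [indicator_of_mem hw]; exact norm_kk_le_e he l _
  · rw [indicator_of_notMem hw, kk_zero e hl, norm_zero]
    rw [mem_closedBall, not_le, dist_comm, dist_eq_norm] at hw
    exact hw.le

/-- antisymmetry -/
theorem integral_GG_self {σ : Measure (Eu d)} [IsFiniteMeasure σ] {e : ℝ} (he : 0 < e) (l : ℝ) :
    ∫ y, GG n σ e l y ∂σ = 0 := by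
  have hi : Integrable (Function.uncurry fun y w : Eu d => kk n e l (y - w)) (σ.prod σ) := by
    refine Integrable.of_bound ?_ ((e ^ n)⁻¹) (Eventually.of_forall fun p => norm_kk_le_e he l _)
    exact ((continuous_kk he l).comp (continuous_fst.sub continuous_snd)).aestronglyMeasurable
  have h1 := integral_integral_swap hi
  have h2 : ∫ w, ∫ y, kk n e l (y - w) ∂σ ∂σ = - ∫ y, GG n σ e l y ∂σ := by
    rw [← integral_neg]
    apply integral_congr_ae
    filter_upwards with w
    unfold GG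
    rw [← integral_neg]
    apply integral_congr_ae
    filter_upwards with y
    rw [← kk_neg, neg_sub]
  rw [h2] at h1
  have h4 : (2 : ℝ) • ∫ y, GG n σ e l y ∂σ = 0 := by
    rw [two_smul]
    exact add_eq_zero_iff_eq_neg.2 h1
  exact (smul_eq_zero.1 h4).resolve_left two_ne_zero

namespace WD

variable {c C a₀ r : ℝ} {I : Type} (W : WD n d c C a₀ r I)

theorem tot_eq_σ (hsm : ∀ i, ∀ᵐ y ∂W.σ i, dist y (W.x i) ≤ W.ρ i) (i : I) {T : Set (Eu d)}
    (hT : MeasurableSet T) (h : T ⊆ closedBall (W.x i) (2 * W.ρ i)) : W.tot T = W.σ i T := by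
  have hρ := W.ρ_pos i
  have h1 : W.μF T = 0 := by
    rw [measure_eq_zero_iff_ae_notMem]
    filter_upwards [W.μF_ae] with y hy hyT
    have h2 := W.far_F i hy
    have h3 := mem_closedBall.1 (h hyT)
    rw [dist_comm] at h3
    linarith
  rw [tot, Measure.add_apply, h1, zero_add, Measure.sum_apply _ hT, tsum_eq_single i]
  intro j hj
  rw [measure_eq_zero_iff_ae_notMem]
  filter_upwards [hsm j] with y hyj hy
  have h2 := W.sep j i hj
  have h3 := mem_closedBall.1 (h hy)
  have h4 := dist_triangle_left (W.x j) (W.x i) y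
  have := W.ρ_pos j
  linarith

theorem tot_restrict (hsm : ∀ i, ∀ᵐ y ∂W.σ i, dist y (W.x i) ≤ W.ρ i) (i : I) :
    W.tot.restrict (closedBall (W.x i) (W.ρ i)) = W.σ i := by
  have hρ := W.ρ_pos i
  ext T hT
  rw [Measure.restrict_apply hT, W.tot_eq_σ hsm i (hT.inter measurableSet_closedBall)
    (inter_subset_right.trans (closedBall_subset_closedBall (by linarith)))]
  apply measure_congr
  filter_upwards [hsm i] with y hy
  apply propext
  exact ⟨fun h => h.1, fun h => ⟨h, hy⟩⟩

/-- averaging over a piece -/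
theorem average (hsm : ∀ i, ∀ᵐ y ∂W.σ i, dist y (W.x i) ≤ W.ρ i) {Kg Km : ℝ} (hKg : 0 < Kg)
    (hGT : ∀ (ν : Measure (Eu d)), UpReg n C ν →
      ∀ (x : Eu d) (e l : ℝ), 0 < e → 0 < l → ‖GG n ν e l x - Tr n ν e l x‖ ≤ Kg)
    (hmove : ∀ (y x : Eu d) (e l : ℝ), 0 < e → 0 < l →
      dist y x ≤ 1 * e → ‖GG n W.tot e l y - GG n W.tot e l x‖ ≤ Km)
    (i : I) {e l : ℝ} (he : 0 < e) (hl : 0 < l) :
    W.σ i univ * ‖GG n W.tot (max e (W.ρ i)) l (W.x i)‖ₑ ≤
      ENNReal.ofReal (Km + 2 * Kg) * W.σ i univ + ∫⁻ y, ‖GG n W.tot e l y‖ₑ ∂W.σ i := by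
  have hC := W.C_pos
  have hρ := W.ρ_pos i
  have f1 := W.σ_fin i
  have l1 := W.tot_up.isLocallyFiniteMeasure
  set e' := max e (W.ρ i) with he'
  have he'0 : 0 < e' := lt_max_of_lt_left he
  set v := GG n W.tot e' l (W.x i) with hv
  set S := closedBall (W.x i) (W.ρ i) with hS
  have hSm : MeasurableSet S := measurableSet_closedBall
  have split : ∀ (y : Eu d) (e'' : ℝ), 0 < e'' → GG n W.tot e'' l y =
      GG n (W.σ i) e'' l y + GG n (W.tot.restrict Sᶜ) e'' l y := by
    intro y e'' he''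
    rw [← W.tot_restrict hsm i]
    unfold GG
    rw [integral_add_compl hSm (integrable_kk he'' hl y)]
  have hup : UpReg n C (W.tot.restrict Sᶜ) := UpReg.of_le W.tot_up Measure.restrict_le_self
  have hupi : UpReg n C (W.σ i) := UpReg.of_le W.tot_up (W.σ_le_tot i)
  set f : Eu d → Eu d := fun y =>
    GG n W.tot e l y + GG n (W.σ i) e' l y - GG n (W.σ i) e l y with hf
  have i1 : Integrable (GG n W.tot e l) (W.σ i) := integrable_GG hC W.tot_up he hl
  have i2 : Integrable (GG n (W.σ i) e' l) (W.σ i) := integrable_GG hC hupi he'0 hl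
  have i3 : Integrable (GG n (W.σ i) e l) (W.σ i) := integrable_GG hC hupi he hl
  have hint : ∫ y, f y ∂W.σ i = ∫ y, GG n W.tot e l y ∂W.σ i := by
    simp only [hf]
    have i4 : Integrable (fun y => GG n W.tot e l y + GG n (W.σ i) e' l y) (W.σ i) := i1.add i2
    rw [integral_sub i4 i3, integral_add i1 i2, integral_GG_self he'0,
      integral_GG_self he, add_zero, sub_zero]
  have hb : ∀ᵐ y ∂W.σ i, ‖f y - v‖ ≤ Km + 2 * Kg := by
    filter_upwards [hsm i] with y hy
    have h1 := hmove y (W.x i) e' l he'0 hl (by linarith [le_max_right e (W.ρ i)])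
    have h2 : ‖GG n (W.tot.restrict Sᶜ) e l y - GG n (W.tot.restrict Sᶜ) e' l y‖ ≤ 2 * Kg := by
      rcases le_total (W.ρ i) e with h | h
      · rw [he', max_eq_left h, sub_self, norm_zero]; positivity
      rw [he', max_eq_right h]
      have h0 : (W.tot.restrict Sᶜ) (closedBall y (W.ρ i)) = 0 := by
        rw [Measure.restrict_apply measurableSet_closedBall,
          W.tot_eq_σ hsm i (measurableSet_closedBall.inter hSm.compl)]
        · rw [measure_eq_zero_iff_ae_notMem]
          filter_upwards [hsm i] with p hp hp2 using hp2.2 hp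
        · rintro p ⟨hp, -⟩
          rw [mem_closedBall] at hp ⊢
          have h1 := dist_triangle p y (W.x i)
          linarith
      have h3 := hGT _ hup y e l he hl
      have h4 := hGT _ hup y (W.ρ i) l hρ hl
      rw [Tr_congr h h0] at h3
      have h5 := norm_sub_le_norm_sub_add_norm_sub (GG n (W.tot.restrict Sᶜ) e l y)
        (Tr n (W.tot.restrict Sᶜ) (W.ρ i) l y) (GG n (W.tot.restrict Sᶜ) (W.ρ i) l y)
      rw [norm_sub_rev (Tr n (W.tot.restrict Sᶜ) (W.ρ i) l y)] at h5
      linarith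
    have e1 : f y - v = (GG n W.tot e' l y - v) +
        (GG n (W.tot.restrict Sᶜ) e l y - GG n (W.tot.restrict Sᶜ) e' l y) := by
      simp only [hf]
      rw [split y e he, split y e' he'0]
      abel
    rw [e1]
    refine (norm_add_le _ _).trans ?_
    linarith
  have h1 := one_measure ((i1.add i2).sub i3) hb
  have h2 : W.σ i univ * ‖v‖ₑ = ‖(W.σ i univ).toReal • v‖ₑ := by
    rw [enorm_smul, Real.enorm_eq_ofReal ENNReal.toReal_nonneg,
      ENNReal.ofReal_toReal (W.mass_ne_top i)]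
  rw [h2]
  refine (enorm_tri _ (∫ y, f y ∂W.σ i)).trans (add_le_add ?_ ?_)
  · rw [enorm_sub_rev]; exact h1
  · rw [hint]; exact enorm_integral_le_lintegral_enorm _

end WD

/-- `L^1` bounds give the control -/
theorem ctl_of_L1 (n : ℕ) (hn : 1 ≤ n) (C : ℝ) (hC : 0 < C) (K₁ : ℝ) (hK₁ : 0 ≤ K₁) :
    ∃ K₀ : ℝ, 0 ≤ K₀ ∧ ∀ (d : ℕ) (c a₀ r : ℝ) (I : Type) (W : WD n d c C a₀ r I),
      (∀ i, ∀ᵐ y ∂W.σ i, dist y (W.x i) ≤ W.ρ i) →
      (∀ (w : Eu d) (l e : ℝ), 0 < l → 0 < e →
        ∫⁻ y in closedBall w (4 * l), ‖GG n W.tot e l y‖ₑ ∂W.tot ≤ ENNReal.ofReal (K₁ * l ^ n)) →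
      W.Ctl K₀ := by
  classical
  obtain ⟨Km, hKm, hmove⟩ := G_move n C hC 1 one_pos
  obtain ⟨Kg, hKg, hGT⟩ := G_sub_T n hn C hC
  refine ⟨(Km + 2 * Kg) * C * 13 ^ n + K₁, by positivity,
    fun d c a₀ r I W hsm h w l e hl he => ⟨?_, ?_⟩⟩
  · refine le_trans (lintegral_mono' (Measure.restrict_mono
      (closedBall_subset_closedBall (by linarith)) W.μF_le_tot) le_rfl) ((h w l e hl he).trans ?_)
    apply ENNReal.ofReal_le_ofReal
    have : 0 ≤ (Km + 2 * Kg) * C * 13 ^ n * l ^ n := by positivity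
    linarith
  · set φ : Eu d → ℝ≥0∞ := (closedBall w (4 * l)).indicator fun y => ‖GG n W.tot e l y‖ₑ with hφ
    have h1 : ∀ i, (if W.ρ i ≤ l ∧ dist (W.x i) w ≤ 3 * l then W.σ i univ else 0) *
        ‖GG n W.tot (max e (W.ρ i)) l (W.x i)‖ₑ ≤
        (if W.ρ i ≤ l ∧ dist (W.x i) w ≤ 3 * l then W.σ i univ else 0) *
          ENNReal.ofReal (Km + 2 * Kg) + ∫⁻ y, φ y ∂W.σ i := by
      intro i
      split_ifs with hi
      · refine (W.average hsm hKg (hGT d) (hmove d W.tot W.tot_up) i he hl).trans ?_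
        rw [mul_comm]
        refine add_le_add le_rfl (lintegral_mono_ae ?_)
        filter_upwards [hsm i] with y hy
        have h2 := dist_triangle y (W.x i) w
        rw [hφ, indicator_of_mem (mem_closedBall.2 (by linarith [hi.1, hi.2]))]
      · rw [zero_mul]; exact bot_le
    refine (ENNReal.tsum_le_tsum h1).trans ?_
    rw [ENNReal.tsum_add, ENNReal.tsum_mul_right, ← lintegral_sum_measure]
    have h2 := mul_le_mul_left (W.tsum_mass_le (p := fun i => W.ρ i ≤ l ∧ dist (W.x i) w ≤ 3 * l)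
      (w := w) (R := 13 * l) (by positivity) (fun i hi => by linarith [hi.1, hi.2]))
      (ENNReal.ofReal (Km + 2 * Kg))
    have h3 : ∫⁻ y, φ y ∂Measure.sum W.σ ≤ ENNReal.ofReal (K₁ * l ^ n) := by
      refine le_trans (lintegral_mono' (ν := W.tot) (Measure.le_add_left le_rfl) le_rfl) ?_
      rw [hφ, lintegral_indicator measurableSet_closedBall]
      exact h w l e hl he
    refine (add_le_add h2 h3).trans (le_of_eq ?_)
    rw [← ENNReal.ofReal_mul (by positivity), ← ENNReal.ofReal_add (by positivity) (by positivity)]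
    congr 1
    rw [mul_pow]; ring

theorem trunc_sub_Tr' {ν : Measure (Eu d)} {C : ℝ} (hC : 0 < C) (hν : UpReg n C ν) {w x : Eu d}
    {e l : ℝ} (he : 0 < e) (hl : 0 < l) (hx : dist x w ≤ 4 * l) :
    ‖truncRiesz n ν e ((ball w (6 * l)).indicator 1) x - Tr n ν e l x‖ ≤ C * 6 ^ n := by
  have hlf := hν.isLocallyFiniteMeasure
  have hsub : closedBall x l ⊆ ball w (6 * l) := by
    intro y hy
    rw [mem_closedBall] at hy
    rw [mem_ball]
    have := dist_triangle y x w
    linarith
  rw [TT.truncRiesz_ind]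
  unfold Tr
  rw [← integral_diff measurableSet_closedBall (intOn_tK he measure_ball_lt_top.ne x) hsub]
  apply norm_le_of_enorm (by positivity)
  refine (enorm_integral_le_lintegral_enorm _).trans ?_
  have hpt : ∀ y ∈ ball w (6 * l) \ closedBall x l, ‖tK n e (x - y)‖ₑ ≤
      ENNReal.ofReal ((l ^ n)⁻¹) := by
    rintro y ⟨-, hy⟩
    rw [mem_closedBall, not_le, dist_comm, dist_eq_norm] at hy
    apply enorm_le_of_norm
    refine (norm_tK_le' e _).trans ?_
    exact inv_anti₀ (by positivity) (pow_le_pow_left₀ hl.le hy.le n)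
  refine (setLIntegral_mono' (measurableSet_ball.diff measurableSet_closedBall) hpt).trans ?_
  rw [setLIntegral_const]
  have h1 : ν (ball w (6 * l) \ closedBall x l) ≤ ENNReal.ofReal (C * (6 * l) ^ n) :=
    (measure_mono (sdiff_subset.trans ball_subset_closedBall)).trans (hν w _ (by positivity))
  refine (mul_le_mul_right h1 _).trans ?_
  rw [← ENNReal.ofReal_mul (by positivity)]
  apply ENNReal.ofReal_le_ofReal
  apply le_of_eq
  rw [mul_pow]; field_simp

/-- `L^2` boundedness gives `L^1` bounds for all upper regular restrictions -/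
theorem L1_of_bounded (n : ℕ) (hn : 1 ≤ n) (C : ℝ) (hC : 0 < C) (C₁ : ℝ) :
    ∃ K₁ : ℝ, 0 ≤ K₁ ∧ ∀ (d : ℕ) (μ : Measure (Eu d)), RieszBoundedWith n C₁ μ →
      ∀ Y : Set (Eu d), MeasurableSet Y → UpReg n C (μ.restrict Y) →
      ∀ (w : Eu d) (l e : ℝ), 0 < l → 0 < e →
        ∫⁻ y in closedBall w (4 * l), ‖GG n (μ.restrict Y) e l y‖ₑ ∂μ.restrict Y ≤
          ENNReal.ofReal (K₁ * l ^ n) := by
  obtain ⟨Kg, hKg, hGT⟩ := G_sub_T n hn C hC
  refine ⟨(Kg + C * 6 ^ n + 1) * C * 4 ^ n + C₁ ^ 2 * C * 6 ^ n, by positivity,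
    fun d μ hb Y hY hup w l e hl he => ?_⟩
  have hC₁ := hb.1
  set B := ball w (6 * l) with hB
  have hYB : MeasurableSet (B ∩ Y) := measurableSet_ball.inter hY
  have hmB : μ (B ∩ Y) ≤ ENNReal.ofReal (C * (6 * l) ^ n) := by
    rw [← Measure.restrict_apply measurableSet_ball]
    exact (measure_mono ball_subset_closedBall).trans (hup w _ (by positivity))
  set T := truncRiesz n μ e ((B ∩ Y).indicator 1) with hT
  have hTe : ∀ x, T x = truncRiesz n (μ.restrict Y) e (B.indicator 1) x := by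
    intro x
    have hms : MeasurableSet {y : Eu d | e < dist x y} :=
      (isOpen_lt continuous_const (by fun_prop)).measurableSet
    simp only [hT]
    unfold truncRiesz
    rw [Measure.restrict_comm hms, ← integral_indicator hY]
    apply integral_congr_ae
    filter_upwards with y
    by_cases hy : y ∈ Y
    · rw [indicator_of_mem hy]
      by_cases hz : y ∈ B
      · rw [indicator_of_mem hz, indicator_of_mem (show y ∈ B ∩ Y from ⟨hz, hy⟩)]
      · rw [indicator_of_notMem hz, indicator_of_notMem (fun h : y ∈ B ∩ Y => hz h.1)]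
    · rw [indicator_of_notMem hy, indicator_of_notMem (fun h : y ∈ B ∩ Y => hy h.2), zero_smul]
  have hf : MemLp ((B ∩ Y).indicator (1 : Eu d → ℝ)) 2 μ :=
    memLp_indicator_const 2 hYB (1 : ℝ) (Or.inr (hmB.trans_lt ENNReal.ofReal_lt_top).ne)
  have h3 := (hb.2 _ hf e he).2
  have h4 : eLpNorm ((B ∩ Y).indicator (1 : Eu d → ℝ)) 2 μ = μ (B ∩ Y) ^ (1 / 2 : ℝ) := by
    have h5 := eLpNorm_indicator_const (p := 2) (μ := μ) (c := (1 : ℝ)) hYB (by norm_num)
      (by norm_num)
    rw [enorm_one, one_mul, ENNReal.toReal_ofNat] at h5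
    exact h5
  have h8 : eLpNorm T 2 μ ^ 2 ≤ ENNReal.ofReal (C₁ ^ 2) * ENNReal.ofReal (C * (6 * l) ^ n) := by
    calc eLpNorm T 2 μ ^ 2 ≤ (ENNReal.ofReal C₁ * μ (B ∩ Y) ^ (1 / 2 : ℝ)) ^ 2 := by
          rw [← h4]
          exact pow_le_pow_left₀ bot_le h3 2
      _ = ENNReal.ofReal (C₁ ^ 2) * μ (B ∩ Y) := by
          rw [mul_pow, ← ENNReal.ofReal_pow hC₁]
          congr 1
          rw [← ENNReal.rpow_two, ← ENNReal.rpow_mul]
          norm_num
      _ ≤ _ := mul_le_mul_right hmB _
  have h9 : ∫⁻ y, ‖T y‖ₑ ^ 2 ∂μ = eLpNorm T 2 μ ^ 2 := by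
    rw [eLpNorm_eq_lintegral_rpow_enorm_toReal (by norm_num) (by norm_num)]
    simp only [ENNReal.toReal_ofNat, ENNReal.rpow_ofNat]
    rw [← ENNReal.rpow_two (_ ^ (1 / 2 : ℝ)), ← ENNReal.rpow_mul]
    norm_num
  have hpt : ∀ y ∈ closedBall w (4 * l), ‖GG n (μ.restrict Y) e l y‖ₑ ≤
      ENNReal.ofReal (Kg + C * 6 ^ n + 1) + ‖T y‖ₑ ^ 2 := by
    intro y hy
    have g1 := hGT d _ hup y e l he hl
    have g2 := trunc_sub_Tr' hC hup he hl (mem_closedBall.1 hy)
    rw [← hB, ← hTe] at g2
    have g3 := norm_sub_norm_le (GG n (μ.restrict Y) e l y) (Tr n (μ.restrict Y) e l y)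
    have g4 := norm_sub_norm_le (Tr n (μ.restrict Y) e l y) (T y)
    rw [norm_sub_rev] at g4
    rw [← ofReal_norm (T y), ← ENNReal.ofReal_pow (norm_nonneg _),
      ← ENNReal.ofReal_add (by positivity) (by positivity)]
    apply enorm_le_of_norm
    nlinarith [sq_nonneg (‖T y‖ - 1), norm_nonneg (T y)]
  refine (setLIntegral_mono' measurableSet_closedBall hpt).trans ?_
  rw [lintegral_add_left measurable_const, setLIntegral_const]
  have g5 : ∫⁻ y in closedBall w (4 * l), ‖T y‖ₑ ^ 2 ∂μ.restrict Y ≤ ∫⁻ y, ‖T y‖ₑ ^ 2 ∂μ :=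
    lintegral_mono' (Measure.restrict_le_self.trans Measure.restrict_le_self) le_rfl
  rw [h9] at g5
  refine (add_le_add (mul_le_mul_right (hup w _ (by positivity)) _) (g5.trans h8)).trans
    (le_of_eq ?_)
  rw [← ENNReal.ofReal_mul (by positivity), ← ENNReal.ofReal_mul (by positivity),
    ← ENNReal.ofReal_add (by positivity) (by positivity)]
  congr 1
  rw [mul_pow, mul_pow]; ring

/-- **local quantitative form** without regularity of the whole measure -/
theorem dens_cover (n d : ℕ) (hn : 1 ≤ n) (hnd : n ≤ d) (c c' C C₁ η : ℝ) (hc : 0 < c)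
    (hc' : 0 < c') (hC : 0 < C) (hη : 0 < η) : ∃ M : ℝ≥0, ∀ μ : Measure (Eu d),
      RieszBoundedWith n C₁ μ → ∀ S : Set (Eu d), MeasurableSet S → UpReg n C (μ.restrict S) →
      ∀ (G F : Set (Eu d)) (z : Eu d) (r : ℝ), 0 < r → IsCompact F → F ⊆ closedBall z r →
      (∀ y ∈ G, ∀ t, 0 < t → t ≤ r → ENNReal.ofReal (c * t ^ n) ≤ μ.restrict S (ball y t)) →
      (∀ y ∈ F, ∀ t, 0 < t → t ≤ r → ENNReal.ofReal (c' * t ^ n) ≤ μ.restrict S (ball y t ∩ G)) →
      ∃ g : Eu n → Eu d, LipschitzWith M g ∧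
        μ.restrict S (F \ g '' ball 0 r) ≤ ENNReal.ofReal (η * r ^ n) := by
  classical
  obtain ⟨K₁, hK₁, hL1⟩ := L1_of_bounded n hn C hC C₁
  obtain ⟨K₀, hK₀, hctl⟩ := ctl_of_L1 n hn C hC K₁ hK₁
  set A : ℝ := 1 + C * 10 ^ n / c with hA
  have hA0 : 0 < A := by positivity
  obtain ⟨M, hM⟩ := cover_F n d hn hnd (c' / 2 ^ n / A) C c K₀ η (by positivity) hC hc hK₀ hη
  obtain ⟨ι⟩ := exists_isometry hnd
  refine ⟨M, fun μ hb S hS hup G F z r hr hFc hFz hG hFl => ?_⟩
  set μ₁ := μ.restrict S with hμ₁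
  have hFm : MeasurableSet F := hFc.isClosed.measurableSet
  suffices H : ∃ g : Eu n → Eu d, LipschitzWith M g ∧
      μ₁.restrict F (g '' ball 0 r)ᶜ ≤ ENNReal.ofReal (η * r ^ n) by
    obtain ⟨g, hg, H⟩ := H
    refine ⟨g, hg, le_trans ?_ H⟩
    rw [Measure.restrict_apply' hFm]
    exact measure_mono fun y hy => ⟨hy.2, hy.1⟩
  rcases F.eq_empty_or_nonempty with hFe | hFne
  · refine ⟨fun _ => 0, (LipschitzWith.const 0).weaken bot_le, ?_⟩
    rw [hFe, Measure.restrict_empty]
    exact bot_le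
  obtain ⟨u, huG, hcount, hsep, hcov⟩ := vitali F
    {y | y ∈ G ∧ 0 < infDist y F ∧ infDist y F ≤ r} r (fun y hy => hy.2)
  have : Countable u := hcount.to_subtype
  set ρ : u → ℝ := fun i => infDist (i : Eu d) F / 40 with hρ
  have hρ0 : ∀ i, 0 < ρ i := fun i => by
    have := (huG i.2).2.1
    simp only [hρ]; positivity
  have hρe : ∀ i : u, infDist (i : Eu d) F = 40 * ρ i := fun i => by simp only [hρ]; ring
  have hρr : ∀ i, 40 * ρ i ≤ r := fun i => by rw [← hρe]; exact (huG i.2).2.2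
  have hsep' : ∀ i j : u, i ≠ j → 2 * ρ i + 2 * ρ j < dist (i : Eu d) j := fun i j hij =>
    hsep i i.2 j j.2 fun h => hij (Subtype.ext h)
  set P : u → Set (Eu d) := fun i => closedBall (i : Eu d) (ρ i) with hP
  have hPm : ∀ i, MeasurableSet (P i) := fun _ => measurableSet_closedBall
  have hPd : Pairwise (Function.onFun Disjoint P) := fun i j hij =>
    closedBall_disjoint_closedBall (by linarith [hsep' i j hij, hρ0 i, hρ0 j])
  have hfar : ∀ i : u, ∀ y ∈ F, 40 * ρ i ≤ dist (i : Eu d) y := fun i y hy => by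
    rw [← hρe]; exact infDist_le_dist_of_mem hy
  have hFP : ∀ i, Disjoint F (P i) := by
    intro i
    rw [Set.disjoint_left]
    intro y hy hy2
    have h1 := mem_closedBall.1 hy2
    have h2 := hfar i y hy
    rw [dist_comm] at h2
    linarith [hρ0 i]
  have htot := restrict_add_sum μ₁ hPm hPd hFP
  set Y := F ∪ ⋃ i, P i with hY
  have hYm : MeasurableSet Y := hFm.union (MeasurableSet.iUnion hPm)
  have hmass : ∀ i : u, ENNReal.ofReal (c * ρ i ^ n) ≤ μ₁ (P i) := fun i =>
    (hG i (huG i.2).1 (ρ i) (hρ0 i) (by linarith [hρr i, hρ0 i])).trans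
      (measure_mono ball_subset_closedBall)
  have hlow : ∀ y ∈ F, ∀ t, 0 < t → t ≤ r → ENNReal.ofReal (c' / 2 ^ n / A * t ^ n) ≤
      (μ₁.restrict F + Measure.sum fun i => μ₁.restrict (P i)) (ball y t) := by
    intro y hy t ht htr
    have h1 := hFl y hy (t / 2) (by positivity) (by linarith)
    have h2 : ball y (t / 2) ∩ G ⊆ (ball y t ∩ F) ∪
        ⋃ i : u, (closedBall (i : Eu d) (10 * ρ i) ∩ ball y (t / 2)) := by
      rintro p ⟨hp, hpG⟩
      have h3 : infDist p F ≤ r := (infDist_le_dist_of_mem hy).trans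
        (by have := mem_ball.1 hp; linarith)
      rcases eq_or_lt_of_le (infDist_nonneg (x := p) (s := F)) with h | h
      · exact Or.inl ⟨ball_subset_ball (by linarith) hp,
          (hFc.isClosed.mem_iff_infDist_zero hFne).2 h.symm⟩
      · obtain ⟨b, hb, hpb⟩ := hcov p ⟨hpG, h, h3⟩
        exact Or.inr (mem_iUnion.2 ⟨⟨b, hb⟩, mem_closedBall.2 hpb, hp⟩)
    have h3 : ∀ i : u, μ₁ (closedBall (i : Eu d) (10 * ρ i) ∩ ball y (t / 2)) ≤
        ENNReal.ofReal A * μ₁.restrict (P i) (ball y t) := by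
      intro i
      have hi := hρ0 i
      rcases (closedBall (i : Eu d) (10 * ρ i) ∩ ball y (t / 2)).eq_empty_or_nonempty with
        h | ⟨p, hp1, hp2⟩
      · rw [h, measure_empty]; exact bot_le
      have h4 : P i ⊆ ball y t := by
        apply closedBall_subset_ball'
        have h5 := hfar i y hy
        have h6 := dist_triangle_left (i : Eu d) y p
        rw [mem_closedBall] at hp1
        rw [mem_ball] at hp2
        linarith
      rw [Measure.restrict_apply measurableSet_ball, inter_eq_right.2 h4]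
      refine (measure_mono inter_subset_left).trans ((hup _ _ (by positivity)).trans ?_)
      refine le_trans ?_ (mul_le_mul_right (hmass i) _)
      rw [← ENNReal.ofReal_mul hA0.le]
      apply ENNReal.ofReal_le_ofReal
      have h7 : A * (c * ρ i ^ n) = c * ρ i ^ n + C * (10 * ρ i) ^ n := by
        rw [hA, mul_pow]; field_simp
      have h8 : 0 ≤ c * ρ i ^ n := by positivity
      linarith
    have h4 : μ₁ (ball y (t / 2) ∩ G) ≤ ENNReal.ofReal A *
        (μ₁.restrict F + Measure.sum fun i => μ₁.restrict (P i)) (ball y t) := by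
      refine (measure_mono h2).trans ((measure_union_le _ _).trans ?_)
      rw [Measure.add_apply, Measure.sum_apply _ measurableSet_ball, mul_add,
        ← ENNReal.tsum_mul_left, Measure.restrict_apply measurableSet_ball]
      refine add_le_add ?_ ((measure_iUnion_le _).trans (ENNReal.tsum_le_tsum h3))
      refine le_mul_of_one_le_left bot_le ?_
      rw [← ENNReal.ofReal_one]
      apply ENNReal.ofReal_le_ofReal
      have : 0 ≤ C * 10 ^ n / c := by positivity
      linarith
    have h5 := h1.trans h4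
    have h6 : c' * (t / 2) ^ n = A * (c' / 2 ^ n / A * t ^ n) := by
      rw [div_pow]; field_simp
    rw [h6, ENNReal.ofReal_mul hA0.le] at h5
    exact (ENNReal.mul_le_mul_iff_right (ENNReal.ofReal_pos.2 hA0).ne'
      ENNReal.ofReal_ne_top).1 h5
  let W : WD n d (c' / 2 ^ n / A) C c r u :=
    { ι := ι
      F := F
      z := z
      x := fun i => i
      ρ := ρ
      μF := μ₁.restrict F
      σ := fun i => μ₁.restrict (P i)
      c_pos := by positivity
      C_pos := hC
      a_pos := hc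
      r_pos := hr
      F_cpt := hFc
      F_ne := hFne
      F_sub := hFz
      ρ_pos := hρ0
      ρ_eq := hρe
      ρ_le := hρr
      sep := hsep'
      μF_supp := restrict_compl_zero μ₁ hFm subset_rfl
      σ_supp := fun i => restrict_compl_zero μ₁ measurableSet_closedBall
        (closedBall_subset_closedBall (by linarith [hρ0 i]))
      mass_lo := fun i => by
        rw [Measure.restrict_apply_univ]
        exact hmass i
      up := by
        rw [htot]
        exact UpReg.of_le hup Measure.restrict_le_self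
      low := hlow }
  have hWtot : W.tot = μ.restrict (Y ∩ S) := by
    rw [← Measure.restrict_restrict hYm]; exact htot
  refine hM r u W (hctl d _ c r u W (fun i => ?_) ?_)
  · filter_upwards [ae_restrict_mem (hPm i)] with y hy using hy
  · have h1 := W.tot_up
    rw [hWtot] at h1 ⊢
    exact hL1 d μ hb _ (hYm.inter hS) h1

end Vale.Agent.P120.MX

end
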