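import Vale.Agent.N120.D
import Mathlib.MeasureTheory.Covering.BesicovitchVectorSpace

section

/-!
`L^2` boundedness of the Riesz transform forces polynomial growth off the atoms.
-/

open MeasureTheory Metric Set Filter Topology
open scoped ENNReal NNReal RealInnerProductSpace

namespace Vale.Agent.P120.MX

variable {n d : ℕ}

theorem L2_ind {C₁ : ℝ} {μ : Measure (Eu d)} (hb : RieszBoundedWith n C₁ μ) {Z : Set (Eu d)}
    (hZ : MeasurableSet Z) (hfin : μ Z ≠ ⊤) {e : ℝ} (he : 0 < e) :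
    ∫⁻ y, ‖truncRiesz n μ e (Z.indicator 1) y‖ₑ ^ 2 ∂μ ≤ ENNReal.ofReal (C₁ ^ 2) * μ Z := by
  have hC₁ := hb.1
  set T := truncRiesz n μ e (Z.indicator 1) with hT
  have hf : MemLp (Z.indicator (1 : Eu d → ℝ)) 2 μ :=
    memLp_indicator_const 2 hZ (1 : ℝ) (Or.inr hfin)
  have h3 := (hb.2 _ hf e he).2
  have h4 : eLpNorm (Z.indicator (1 : Eu d → ℝ)) 2 μ = μ Z ^ (1 / 2 : ℝ) := by
    have h5 := eLpNorm_indicator_const (p := 2) (μ := μ) (c := (1 : ℝ)) hZ (by norm_num)
      (by norm_num)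
    rw [enorm_one, one_mul, ENNReal.toReal_ofNat] at h5
    exact h5
  have h9 : ∫⁻ y, ‖T y‖ₑ ^ 2 ∂μ = eLpNorm T 2 μ ^ 2 := by
    rw [eLpNorm_eq_lintegral_rpow_enorm_toReal (by norm_num) (by norm_num)]
    simp only [ENNReal.toReal_ofNat, ENNReal.rpow_ofNat]
    rw [← ENNReal.rpow_two (_ ^ (1 / 2 : ℝ)), ← ENNReal.rpow_mul]
    norm_num
  rw [h9]
  calc eLpNorm T 2 μ ^ 2 ≤ (ENNReal.ofReal C₁ * μ Z ^ (1 / 2 : ℝ)) ^ 2 := by
        rw [← h4]
        exact pow_le_pow_left₀ bot_le h3 2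
    _ = ENNReal.ofReal (C₁ ^ 2) * μ Z := by
        rw [mul_pow, ← ENNReal.ofReal_pow hC₁]
        congr 1
        rw [← ENNReal.rpow_two, ← ENNReal.rpow_mul]
        norm_num

theorem kernel_lower {u z : Eu d} {s R : ℝ} (hs : 0 < s) (hu : 4 * s ≤ ‖u‖) (huR : ‖u‖ ≤ R)
    (hz : ‖z - u‖ ≤ s) : ‖u‖ * (2 * (2 * R) ^ n)⁻¹ ≤ ⟪u, rieszKernel n z⟫ := by
  have hu0 : 0 < ‖u‖ := by linarith
  have hR : 0 < R := by linarith
  have h1 : ‖z‖ ≤ 5 / 4 * ‖u‖ := by
    have := norm_add_le (z - u) u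
    rw [sub_add_cancel] at this
    linarith
  have h2 : 3 / 4 * ‖u‖ ≤ ‖z‖ := by
    have := norm_sub_norm_le u z
    rw [norm_sub_rev] at this
    linarith
  have hz0 : 0 < ‖z‖ := by linarith
  have h3 : 3 / 4 * ‖u‖ ^ 2 ≤ ⟪u, z⟫ := by
    have e1 : ⟪u, z⟫ = ‖u‖ ^ 2 + ⟪u, z - u⟫ := by
      rw [inner_sub_right, real_inner_self_eq_norm_sq]; ring
    have h4 := abs_real_inner_le_norm u (z - u)
    have h5 : ‖u‖ * ‖z - u‖ ≤ ‖u‖ * (‖u‖ / 4) :=
      mul_le_mul_of_nonneg_left (by linarith) hu0.le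
    have h6 := neg_abs_le ⟪u, z - u⟫
    nlinarith
  rw [rieszKernel, inner_smul_right]
  have h4 : ‖z‖ ^ (n + 1) ≤ (2 * R) ^ n * (5 / 4 * ‖u‖) := by
    rw [pow_succ]
    exact mul_le_mul (pow_le_pow_left₀ hz0.le (by linarith) n) h1 hz0.le (by positivity)
  calc ‖u‖ * (2 * (2 * R) ^ n)⁻¹ ≤ ((2 * R) ^ n * (5 / 4 * ‖u‖))⁻¹ * (3 / 4 * ‖u‖ ^ 2) := by
        rw [show ((2 * R) ^ n * (5 / 4 * ‖u‖))⁻¹ * (3 / 4 * ‖u‖ ^ 2) =
          ‖u‖ * (5 / 3 * (2 * R) ^ n)⁻¹ by field_simp]
        apply mul_le_mul_of_nonneg_left _ hu0.le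
        apply inv_anti₀ (by positivity)
        have : 0 < (2 * R) ^ n := by positivity
        linarith
    _ ≤ (‖z‖ ^ (n + 1))⁻¹ * ⟪u, z⟫ :=
        mul_le_mul (inv_anti₀ (by positivity) h4) h3 (by positivity) (by positivity)

/-- two well separated sets cannot both be heavy -/
theorem pair_le {C₁ : ℝ} {μ : Measure (Eu d)} [IsLocallyFiniteMeasure μ]
    (hb : RieszBoundedWith n C₁ μ) {S : Set (Eu d)} (hS : MeasurableSet S) (x : Eu d) {s R : ℝ}
    (hs : 0 < s) (hR : 0 < R) {P : Set (Eu d)} (hP : MeasurableSet P)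
    (hPx : ∀ y ∈ P, 4 * s ≤ dist y x ∧ dist y x ≤ R) :
    (μ.restrict S).real P * (μ.restrict S).real (closedBall x s) ≤
      4 * C₁ ^ 2 * ((2 * R) ^ n) ^ 2 := by
  set Z := closedBall x s ∩ S with hZ
  have hZm : MeasurableSet Z := measurableSet_closedBall.inter hS
  have hZf : μ Z ≠ ⊤ := ((measure_mono inter_subset_left).trans_lt measure_closedBall_lt_top).ne
  have hq : (μ.restrict S).real (closedBall x s) = μ.real Z := by
    rw [measureReal_def, Measure.restrict_apply measurableSet_closedBall]; rfl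
  rw [hq]
  set q := μ.real Z with hqd
  have hq0 : 0 ≤ q := measureReal_nonneg
  set b : ℝ := q * (2 * (2 * R) ^ n)⁻¹ with hbd
  have hb0 : 0 ≤ b := by positivity
  have hpt : ∀ y ∈ P, b ≤ ‖truncRiesz n μ s (Z.indicator 1) y‖ := by
    intro y hy
    obtain ⟨h1, h2⟩ := hPx y hy
    rw [dist_eq_norm] at h1 h2
    have hfar : ∀ w ∈ Z, 3 * s ≤ ‖y - w‖ := by
      intro w hw
      have h3 := mem_closedBall.1 hw.1
      have h4 := dist_triangle y w x
      rw [dist_eq_norm, dist_eq_norm] at h4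
      linarith
    have hms : MeasurableSet {w : Eu d | s < dist y w} :=
      (isOpen_lt continuous_const (by fun_prop)).measurableSet
    have e1 : truncRiesz n μ s (Z.indicator 1) y = ∫ w in Z, tK n s (y - w) ∂μ := by
      unfold truncRiesz
      rw [← integral_indicator hms, ← integral_indicator hZm]
      apply integral_congr_ae
      filter_upwards with w
      by_cases hw : w ∈ Z
      · have h3 : s < ‖y - w‖ := by linarith [hfar w hw]
        rw [indicator_of_mem (show w ∈ {w : Eu d | s < dist y w} by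
          rw [mem_ofPred_eq, dist_eq_norm]; exact h3), indicator_of_mem hw, indicator_of_mem hw,
          Pi.one_apply, one_smul, tK, indicator_of_mem (show y - w ∈ {z : Eu d | s < ‖z‖} from h3)]
      · rw [indicator_of_notMem hw]
        by_cases h3 : w ∈ {w : Eu d | s < dist y w}
        · rw [indicator_of_mem h3, indicator_of_notMem hw, zero_smul]
        · rw [indicator_of_notMem h3]
    have hint := intOn_tK (n := n) hs hZf y
    have e2 : ⟪y - x, ∫ w in Z, tK n s (y - w) ∂μ⟫ = ∫ w in Z, ⟪y - x, tK n s (y - w)⟫ ∂μ :=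
      (integral_inner hint (y - x)).symm
    have h5 : ‖y - x‖ * (2 * (2 * R) ^ n)⁻¹ * q ≤ ∫ w in Z, ⟪y - x, tK n s (y - w)⟫ ∂μ := by
      refine setIntegral_ge_of_const_le_real hZm hZf (fun w hw => ?_) (hint.const_inner _)
      have h3 : s < ‖y - w‖ := by linarith [hfar w hw]
      rw [tK, indicator_of_mem (show y - w ∈ {z : Eu d | s < ‖z‖} from h3)]
      apply kernel_lower hs h1 h2
      rw [show y - w - (y - x) = x - w by abel, ← dist_eq_norm, dist_comm]
      exact hw.1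
    rw [← e2, ← e1] at h5
    have h6 := real_inner_le_norm (y - x) (truncRiesz n μ s (Z.indicator 1) y)
    have h7 : 0 < ‖y - x‖ := by linarith
    have h8 : ‖y - x‖ * b ≤ ‖y - x‖ * ‖truncRiesz n μ s (Z.indicator 1) y‖ := by
      rw [hbd]; linarith
    exact le_of_mul_le_mul_left h8 h7
  have h1 : ENNReal.ofReal (b ^ 2) * μ.restrict S P ≤ ENNReal.ofReal (C₁ ^ 2) * μ Z := by
    refine le_trans ?_ (L2_ind hb hZm hZf hs)
    rw [Measure.restrict_apply hP, ← setLIntegral_const]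
    refine le_trans (setLIntegral_mono' (hP.inter hS) fun y hy => ?_) (setLIntegral_le_lintegral _ _)
    rw [← ofReal_norm, ← ENNReal.ofReal_pow (norm_nonneg _)]
    exact ENNReal.ofReal_le_ofReal (pow_le_pow_left₀ hb0 (hpt y hy.1) 2)
  have h2 := ENNReal.toReal_mono (ENNReal.mul_ne_top ENNReal.ofReal_ne_top hZf) h1
  rw [ENNReal.toReal_mul, ENNReal.toReal_mul, ENNReal.toReal_ofReal (by positivity),
    ENNReal.toReal_ofReal (by positivity)] at h2
  change b ^ 2 * (μ.restrict S).real P ≤ C₁ ^ 2 * q at h2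
  rcases eq_or_lt_of_le hq0 with h | h
  · rw [← h, mul_zero]; positivity
  · have h3 : b ^ 2 * (μ.restrict S).real P =
        q * ((μ.restrict S).real P * q / (4 * ((2 * R) ^ n) ^ 2)) := by
      rw [hbd]; field_simp; ring
    rw [h3, mul_comm (C₁ ^ 2)] at h2
    have h4 := le_of_mul_le_mul_left h2 h
    rw [div_le_iff₀ (by positivity)] at h4
    linarith

theorem exists_heavy (d : ℕ) : ∃ N : ℝ, 0 < N ∧ ∀ (ν : Measure (Eu d)) [IsLocallyFiniteMeasure ν]
    (x : Eu d) (r : ℝ), 0 < r → ∃ x', dist x' x ≤ r ∧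
      ν.real (closedBall x r) ≤ N * ν.real (closedBall x' (r / 40)) := by
  classical
  obtain ⟨t, hts, htf, hcov⟩ := finite_cover_balls_of_compact
    (isCompact_closedBall (0 : Eu d) 1) (e := 1 / 40) (by norm_num)
  have hne : htf.toFinset.Nonempty := by
    obtain ⟨a, ha, -⟩ := mem_iUnion₂.1 (hcov (mem_closedBall_self zero_le_one))
    exact ⟨a, htf.mem_toFinset.2 ha⟩
  refine ⟨htf.toFinset.card, by exact_mod_cast hne.card_pos, fun ν _ x r hr => ?_⟩
  obtain ⟨a, ha, hmax⟩ := htf.toFinset.exists_max_image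
    (fun a => ν.real (closedBall (x + r • a) (r / 40))) hne
  refine ⟨x + r • a, ?_, ?_⟩
  · have h1 := hts (htf.mem_toFinset.1 ha)
    rw [mem_closedBall, dist_zero_right] at h1
    rw [dist_eq_norm, add_sub_cancel_left, norm_smul, Real.norm_of_nonneg hr.le]
    exact mul_le_of_le_one_right hr.le h1
  · have hsub : closedBall x r ⊆ ⋃ b ∈ htf.toFinset, closedBall (x + r • b) (r / 40) := by
      intro y hy
      have h1 : r⁻¹ • (y - x) ∈ closedBall (0 : Eu d) 1 := by
        rw [mem_closedBall, dist_zero_right, norm_smul, Real.norm_of_nonneg (by positivity),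
          ← dist_eq_norm, inv_mul_le_iff₀ hr, mul_one]
        exact hy
      obtain ⟨b, hb, h2⟩ := mem_iUnion₂.1 (hcov h1)
      refine mem_iUnion₂.2 ⟨b, htf.mem_toFinset.2 hb, ?_⟩
      rw [mem_ball, dist_eq_norm] at h2
      rw [mem_closedBall, dist_eq_norm]
      have h3 : y - (x + r • b) = r • (r⁻¹ • (y - x) - b) := by
        rw [smul_sub, smul_smul, mul_inv_cancel₀ hr.ne', one_smul]; abel
      rw [h3, norm_smul, Real.norm_of_nonneg hr.le]
      nlinarith
    refine (measureReal_mono hsub ?_).trans ((measureReal_biUnion_finset_le _ _).trans ?_)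
    · exact ((measure_biUnion_finset_le _ _).trans_lt
        (ENNReal.sum_lt_top.2 fun b _ => measure_closedBall_lt_top)).ne
    · refine (Finset.sum_le_card_nsmul _ _ _ hmax).trans (le_of_eq ?_)
      rw [nsmul_eq_mul]

/-- **growth off the atoms** -/
theorem growth (n d : ℕ) (hn : 1 ≤ n) (C₁ : ℝ) : ∃ C : ℝ, 0 < C ∧ ∀ (μ : Measure (Eu d))
    [IsLocallyFiniteMeasure μ], RieszBoundedWith n C₁ μ → ∀ S : Set (Eu d), MeasurableSet S →
      (∀ y, μ.restrict S {y} = 0) → UpReg n C (μ.restrict S) := by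
  obtain ⟨N, hN, hheavy⟩ := exists_heavy d
  set K : ℝ := 4 * C₁ ^ 2 * (4 ^ n) ^ 2 with hK
  have hK0 : 0 ≤ K := by positivity
  refine ⟨8 * K * N + 1, by positivity, fun μ _ hb S hS hat x r hr => ?_⟩
  set ν := μ.restrict S with hν
  have hstep : ∀ (y : Eu d) (t : ℝ), 0 < t → ∃ y', dist y' y ≤ t ∧
      ν.real (closedBall y t) * ν.real (closedBall y t) ≤
        ν.real (closedBall y' (t / 10)) * ν.real (closedBall y t) + K * N * (t ^ n) ^ 2 := by
    intro y t ht
    obtain ⟨y', hy', h1⟩ := hheavy ν y t ht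
    refine ⟨y', hy', ?_⟩
    have h2 := pair_le hb hS y' (s := t / 40) (R := 2 * t) (by positivity) (by positivity)
      (P := closedBall y t \ closedBall y' (t / 10))
      (measurableSet_closedBall.diff measurableSet_closedBall) (by
        rintro p ⟨hp1, hp2⟩
        rw [mem_closedBall] at hp1
        rw [mem_closedBall, not_le] at hp2
        have := dist_triangle_right p y' y
        constructor <;> linarith)
    rw [← hν] at h2
    have h3 : ν.real (closedBall y t) ≤ ν.real (closedBall y' (t / 10)) +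
        ν.real (closedBall y t \ closedBall y' (t / 10)) := by
      refine le_trans (measureReal_mono ?_ ?_) (measureReal_union_le _ _)
      · intro p hp
        by_cases h : p ∈ closedBall y' (t / 10)
        · exact Or.inl h
        · exact Or.inr ⟨hp, h⟩
      · exact (measure_union_lt_top measure_closedBall_lt_top
          ((measure_mono sdiff_subset).trans_lt measure_closedBall_lt_top)).ne
    have h4 : 4 * C₁ ^ 2 * ((2 * (2 * t)) ^ n) ^ 2 = K * (t ^ n) ^ 2 := by
      rw [hK, show 2 * (2 * t) = 4 * t by ring, mul_pow]; ring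
    rw [h4] at h2
    have h5 : 0 ≤ ν.real (closedBall y t \ closedBall y' (t / 10)) := measureReal_nonneg
    have h6 : 0 ≤ ν.real (closedBall y t) := measureReal_nonneg
    have h7 := mul_le_mul_of_nonneg_left h1 h5
    have h8 := mul_le_mul_of_nonneg_right h3 h6
    have h9 := mul_le_mul_of_nonneg_left h2 hN.le
    nlinarith
  by_contra hcon
  set m₀ := ν.real (closedBall x r) with hm₀
  have hrn : 0 < r ^ n := by positivity
  have hbig : (8 * K * N + 1) * r ^ n < m₀ := by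
    by_contra h
    apply hcon
    rw [← ENNReal.ofReal_toReal (measure_closedBall_lt_top (μ := ν) (x := x) (r := r)).ne]
    exact ENNReal.ofReal_le_ofReal (not_lt.1 h)
  have hKN : 0 ≤ K * N := by positivity
  have hm0 : 0 < m₀ := lt_trans (by positivity) hbig
  have hsq : 8 * (K * N) * (r ^ n) ^ 2 ≤ m₀ ^ 2 := by
    have h1 : ((8 * K * N + 1) * r ^ n) ^ 2 ≤ m₀ ^ 2 :=
      pow_le_pow_left₀ (by positivity) hbig.le 2
    have h2 : 8 * (K * N) ≤ (8 * K * N + 1) ^ 2 := by nlinarith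
    rw [mul_pow] at h1
    nlinarith [mul_le_mul_of_nonneg_right h2 (sq_nonneg (r ^ n))]
  have hind : ∀ k : ℕ, ∃ y, dist y x + 2 * (r / 10 ^ k) ≤ 2 * r ∧
      m₀ / 2 + m₀ / 2 / 2 ^ k ≤ ν.real (closedBall y (r / 10 ^ k)) := by
    intro k
    induction k with
    | zero => exact ⟨x, by simp, by simp [hm₀]⟩
    | succ k ih =>
      obtain ⟨y, hy1, hy2⟩ := ih
      have ht : 0 < r / 10 ^ k := by positivity
      obtain ⟨y', hy', h1⟩ := hstep y _ ht
      have e1 : r / 10 ^ (k + 1) = r / 10 ^ k / 10 := by rw [pow_succ]; field_simp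
      refine ⟨y', ?_, ?_⟩
      · have := dist_triangle y' y x
        rw [e1]; linarith
      · rw [e1]
        set m := ν.real (closedBall y (r / 10 ^ k)) with hm
        set m' := ν.real (closedBall y' (r / 10 ^ k / 10)) with hm'
        have h2k : (0 : ℝ) < 2 ^ k := by positivity
        have h2 : ((r / 10 ^ k) ^ n) ^ 2 ≤ (r ^ n) ^ 2 / 2 ^ k := by
          rw [div_pow, div_pow]
          apply div_le_div_of_nonneg_left (by positivity) h2k
          calc (2 : ℝ) ^ k ≤ 10 ^ k := pow_le_pow_left₀ (by norm_num) (by norm_num) k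
            _ ≤ ((10 ^ k) ^ n) ^ 2 := by
                rw [← pow_mul]
                exact le_self_pow₀ (one_le_pow₀ (by norm_num)) (by omega)
        have h3 : m₀ / 2 ≤ m := by
          have : 0 ≤ m₀ / 2 / 2 ^ k := by positivity
          linarith
        have hmp : 0 < m := by linarith
        have h4 : K * N * ((r / 10 ^ k) ^ n) ^ 2 ≤ m₀ / 4 / 2 ^ k * m := by
          calc K * N * ((r / 10 ^ k) ^ n) ^ 2 ≤ K * N * ((r ^ n) ^ 2 / 2 ^ k) :=
                mul_le_mul_of_nonneg_left h2 hKN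
            _ = 8 * (K * N) * (r ^ n) ^ 2 / 8 / 2 ^ k := by ring
            _ ≤ m₀ ^ 2 / 8 / 2 ^ k := by gcongr
            _ = m₀ / 4 / 2 ^ k * (m₀ / 2) := by ring
            _ ≤ _ := mul_le_mul_of_nonneg_left h3 (by positivity)
        have h5 : m * m ≤ (m' + m₀ / 4 / 2 ^ k) * m := by linarith
        have h6 := le_of_mul_le_mul_right h5 hmp
        have e2 : m₀ / 2 / 2 ^ (k + 1) = m₀ / 2 / 2 ^ k - m₀ / 4 / 2 ^ k := by
          rw [pow_succ]; field_simp; ring
        rw [e2]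
        linarith
  have hopen : ∀ y : Eu d, ∃ U, U ⊇ {y} ∧ IsOpen U ∧ ν U < ENNReal.ofReal (m₀ / 2) := fun y =>
    Set.exists_isOpen_lt_of_lt _ _ (by rw [hat y]; exact ENNReal.ofReal_pos.2 (by positivity))
  choose U hU1 hU2 hU3 using hopen
  obtain ⟨δ, hδ, hleb⟩ := lebesgue_number_lemma_of_metric (isCompact_closedBall x (2 * r)) hU2
    (fun y _ => mem_iUnion.2 ⟨y, hU1 y rfl⟩)
  obtain ⟨k, hk⟩ := pow_unbounded_of_one_lt (r / δ) (show (1 : ℝ) < 10 by norm_num)
  obtain ⟨y, hy1, hy2⟩ := hind k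
  have ht : 0 < r / 10 ^ k := by positivity
  obtain ⟨i, hi⟩ := hleb y (mem_closedBall.2 (by linarith))
  have hlt : r / 10 ^ k < δ := by
    rw [div_lt_iff₀ hδ] at hk
    rw [div_lt_iff₀ (by positivity)]
    linarith
  have h1 : ν (closedBall y (r / 10 ^ k)) < ENNReal.ofReal (m₀ / 2) :=
    (measure_mono ((closedBall_subset_ball hlt).trans hi)).trans_lt (hU3 i)
  have h2 : ν.real (closedBall y (r / 10 ^ k)) < m₀ / 2 := ENNReal.toReal_lt_of_lt_ofReal h1
  have h3 : 0 ≤ m₀ / 2 / 2 ^ k := by positivity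
  linarith

end Vale.Agent.P120.MX

end

section

/-!
Rectifiability statements.
-/

open MeasureTheory Metric Set Filter Topology
open scoped ENNReal NNReal

namespace Vale.Agent.P120.MX

variable {n d : ℕ}

/-- covered up to a null set by countably many Lipschitz images -/
def Rect (n : ℕ) (μ : Measure (Eu d)) (E : Set (Eu d)) : Prop :=
  ∃ g : ℕ → Eu n → Eu d, (∀ k, ∃ M : ℝ≥0, LipschitzWith M (g k)) ∧ μ (E \ ⋃ k, range (g k)) = 0

variable {μ : Measure (Eu d)}

theorem Rect.mono_ae {E E' : Set (Eu d)} (h : Rect n μ E') (hE : ∀ᵐ y ∂μ, y ∈ E → y ∈ E') :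
    Rect n μ E := by
  obtain ⟨g, hg, h0⟩ := h
  refine ⟨g, hg, le_antisymm (le_trans (measure_mono_ae ?_) h0.le) bot_le⟩
  filter_upwards [hE] with y hy hy2 using ⟨hy hy2.1, hy2.2⟩

theorem Rect.iUnion {E : ℕ → Set (Eu d)} (h : ∀ i, Rect n μ (E i)) : Rect n μ (⋃ i, E i) := by
  choose g hg h0 using h
  refine ⟨fun k => g k.unpair.1 k.unpair.2, fun k => hg _ _, ?_⟩
  refine measure_mono_null ?_ (measure_iUnion_null h0)
  rintro y ⟨hy1, hy2⟩
  obtain ⟨i, hi⟩ := mem_iUnion.1 hy1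
  refine mem_iUnion.2 ⟨i, hi, fun h => hy2 ?_⟩
  obtain ⟨k, hk⟩ := mem_iUnion.1 h
  exact mem_iUnion.2 ⟨Nat.pair i k, by simpa only [Nat.unpair_pair] using hk⟩

theorem Rect.union {E E' : Set (Eu d)} (h : Rect n μ E) (h' : Rect n μ E') :
    Rect n μ (E ∪ E') := by
  have h1 := Rect.iUnion (n := n) (μ := μ) (E := fun i => if i = 0 then E else E')
    (fun i => by split_ifs; exacts [h, h'])
  refine h1.mono_ae (Eventually.of_forall fun y hy => ?_)
  rcases hy with hy | hy
  · exact mem_iUnion.2 ⟨0, by simpa using hy⟩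
  · exact mem_iUnion.2 ⟨1, by simpa using hy⟩

theorem rect_of_approx {E : Set (Eu d)} (h : ∀ η : ℝ, 0 < η → ∃ (M : ℝ≥0) (g : Eu n → Eu d),
    LipschitzWith M g ∧ μ (E \ range g) ≤ ENNReal.ofReal η) : Rect n μ E := by
  choose M g hg h0 using fun k : ℕ => h (1 / ((k : ℝ) + 1)) (by positivity)
  refine ⟨g, fun k => ⟨M k, hg k⟩, le_antisymm ?_ bot_le⟩
  have ht : Tendsto (fun k : ℕ => ENNReal.ofReal (1 / ((k : ℝ) + 1))) atTop (𝓝 0) := by
    rw [← ENNReal.ofReal_zero]
    exact ENNReal.tendsto_ofReal tendsto_one_div_add_atTop_nhds_zero_nat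
  refine ge_of_tendsto' ht fun k => le_trans (measure_mono ?_) (h0 k)
  exact fun y hy => ⟨hy.1, fun h => hy.2 (mem_iUnion.2 ⟨k, h⟩)⟩

theorem rect_of_local {E : Set (Eu d)} {r : ℝ} (hr : 0 < r) (h : ∀ z, Rect n μ (E ∩ ball z r)) :
    Rect n μ E := by
  refine (Rect.iUnion fun k => h (TopologicalSpace.denseSeq (Eu d) k)).mono_ae
    (Eventually.of_forall fun y hy => ?_)
  obtain ⟨k, hk⟩ := (TopologicalSpace.denseRange_denseSeq (Eu d)).exists_dist_lt y hr
  exact mem_iUnion.2 ⟨k, hy, hk⟩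

theorem rect_countable {A : Set (Eu d)} (hA : A.Countable) : Rect n μ A := by
  rcases A.eq_empty_or_nonempty with rfl | hne
  · exact ⟨fun _ _ => 0, fun _ => ⟨0, LipschitzWith.const 0⟩, by simp⟩
  · obtain ⟨f, rfl⟩ := hA.exists_eq_range hne
    refine ⟨fun k _ => f k, fun k => ⟨0, LipschitzWith.const _⟩, ?_⟩
    convert measure_empty (μ := μ)
    rw [sdiff_eq_empty]
    rintro _ ⟨k, rfl⟩
    exact mem_iUnion.2 ⟨k, 0, rfl⟩

theorem Rect.of_restrict {S E : Set (Eu d)} (hS : MeasurableSet S) (h : Rect n (μ.restrict S) E) :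
    Rect n μ (E ∩ S) := by
  obtain ⟨g, hg, h0⟩ := h
  refine ⟨g, hg, ?_⟩
  rw [Measure.restrict_apply' hS] at h0
  refine measure_mono_null ?_ h0
  exact fun y hy => ⟨⟨hy.1.1, hy.2⟩, hy.1.2⟩

/-- the local quantitative statement in the notation of the problem -/
theorem point_quant (n d : ℕ) (hn : 1 ≤ n) (hnd : n ≤ d) (C₀ L η : ℝ) (hη : 0 < η) :
    ∃ M : ℝ≥0, ∀ μ : Measure (Eu d), ADRegularWith n C₀ μ → ∀ (x : Eu d) (r : ℝ), 0 < r →
      ENNReal.ofReal r ≤ ediam μ.support → ∃ g : Eu n → Eu d, LipschitzWith M g ∧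
        μ ({y | y ∈ ball x r ∧ ∀ ε t : ℝ, 0 < ε → ε < t → t ≤ r →
          ‖truncRiesz n μ ε ((closedBall y t).indicator 1) y‖ ≤ L} \ g '' ball 0 r) ≤
          ENNReal.ofReal (η * r ^ n) := by
  by_cases hC₀ : 1 ≤ C₀
  swap
  · exact ⟨1, fun μ h1 => absurd h1.1 hC₀⟩
  obtain ⟨C, hC, hAR⟩ := ar_quant n d C₀ hC₀
  obtain ⟨M, hM⟩ := point_cover n d hn hnd C₀⁻¹ C |L| η (by positivity) hC hη
  refine ⟨M, fun μ h1 x r hr hrD => ?_⟩
  have hD : 0 < ediam μ.support := lt_of_lt_of_le (ENNReal.ofReal_pos.2 hr) hrD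
  obtain ⟨g, hg, h⟩ := hM μ _ (hAR μ hD h1.2) x r hr hrD
  refine ⟨g, hg, le_trans (measure_mono (sdiff_subset_sdiff_left ?_)) h⟩
  rintro y ⟨hy1, hy2⟩
  refine ⟨hy1, fun e t he ht htr => ?_⟩
  by_cases het : e < t
  · have := hy2 e t he het htr
    rw [truncRiesz_closedBall] at this
    exact this.trans (le_abs_self L)
  · have : Tr n μ e t y = 0 := by
      unfold Tr
      apply setIntegral_eq_zero_of_forall_eq_zero
      intro w hw
      rw [mem_closedBall, dist_comm, dist_eq_norm] at hw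
      rw [tK, indicator_of_notMem]
      rw [mem_ofPred_eq]
      linarith
    rw [this, norm_zero]
    exact abs_nonneg L

theorem Tr_split {ν : Measure (Eu d)} [IsLocallyFiniteMeasure ν] {x : Eu d} {e t l : ℝ}
    (he : 0 < e) (het : e < t) (htl : t ≤ l) : Tr n ν e t x = Tr n ν e l x - Tr n ν t l x := by
  have ht : 0 < t := he.trans het
  unfold Tr
  rw [← integral_sub (intOn_tK he measure_closedBall_lt_top.ne x)
    (intOn_tK ht measure_closedBall_lt_top.ne x), ← integral_indicator measurableSet_closedBall,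
    ← integral_indicator measurableSet_closedBall]
  apply integral_congr_ae
  filter_upwards with w
  by_cases hw : w ∈ closedBall x t
  · rw [indicator_of_mem hw, indicator_of_mem (closedBall_subset_closedBall htl hw)]
    rw [mem_closedBall, dist_comm, dist_eq_norm] at hw
    rw [tK, tK, indicator_of_notMem (show x - w ∉ {z : Eu d | t < ‖z‖} from not_lt.2 hw), sub_zero]
  · rw [indicator_of_notMem hw]
    rw [mem_closedBall, not_le, dist_comm, dist_eq_norm] at hw
    by_cases hw2 : w ∈ closedBall x l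
    · rw [indicator_of_mem hw2, tK, tK,
        indicator_of_mem (show x - w ∈ {z : Eu d | t < ‖z‖} from hw),
        indicator_of_mem (show x - w ∈ {z : Eu d | e < ‖z‖} from het.trans hw), sub_self]
    · rw [indicator_of_notMem hw2]

/-- **regular measures: bounded truncations give rectifiability** -/
theorem point_rect (n d : ℕ) (hn : 1 ≤ n) (hnd : n ≤ d) (μ : Measure (Eu d))
    [IsLocallyFiniteMeasure μ] (hreg : ADRegular n μ) :
    Rect n μ {x | ∃ L : ℝ, ∀ ε : ℝ, 0 < ε →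
      ‖truncRiesz n μ ε ((closedBall x 1).indicator 1) x‖ ≤ L} := by
  obtain ⟨C₀, hC₀⟩ := hreg
  have hsupp : ∀ᵐ y ∂μ, y ∈ μ.support := Measure.support_mem_ae
  by_cases hD : 0 < ediam μ.support
  swap
  · have h0 : ediam μ.support = 0 := le_antisymm (not_lt.1 hD) bot_le
    have h1 : μ.support.Subsingleton := ediam_eq_zero_iff.1 h0
    refine (rect_countable h1.countable).mono_ae ?_
    filter_upwards [hsupp] with y hy _ using hy
  obtain ⟨r, hr, hr1, hrD⟩ : ∃ r : ℝ, 0 < r ∧ r ≤ 1 ∧ ENNReal.ofReal r ≤ ediam μ.support := by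
    obtain ⟨s, hs0, hs1, hs2⟩ := ENNReal.lt_iff_exists_real_btwn.1 hD
    refine ⟨min s 1, lt_min (ENNReal.ofReal_pos.1 hs1) one_pos, min_le_right _ _, ?_⟩
    exact (ENNReal.ofReal_le_ofReal (min_le_left _ _)).trans hs2.le
  have key : ∀ L : ℕ, Rect n μ {x | ∀ ε : ℝ, 0 < ε →
      ‖truncRiesz n μ ε ((closedBall x 1).indicator 1) x‖ ≤ L} := by
    intro L
    refine rect_of_local hr fun z => rect_of_approx fun η hη => ?_
    obtain ⟨M, hM⟩ := point_quant n d hn hnd C₀ (2 * L) (η / r ^ n) (by positivity)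
    obtain ⟨g, hg, h⟩ := hM μ hC₀ z r hr hrD
    refine ⟨M, g, hg, le_trans (measure_mono ?_) (h.trans (le_of_eq ?_))⟩
    · rintro y ⟨⟨hy1, hy2⟩, hy3⟩
      refine ⟨⟨hy2, fun e t he het htr => ?_⟩, fun h => hy3 (image_subset_range _ _ h)⟩
      have h1 := hy1 e he
      have h2 := hy1 t (he.trans het)
      rw [truncRiesz_closedBall] at h1 h2 ⊢
      rw [Tr_split he het (htr.trans hr1)]
      refine (norm_sub_le _ _).trans ?_
      linarith
    · congr 1
      field_simp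
  refine (Rect.iUnion key).mono_ae (Eventually.of_forall ?_)
  rintro y ⟨L, hL⟩
  obtain ⟨k, hk⟩ := exists_nat_ge L
  exact mem_iUnion.2 ⟨k, fun ε hε => (hL ε hε).trans hk⟩

/-- points with a lower density bound of level `j` -/
def LD (n : ℕ) (ν : Measure (Eu d)) (j : ℕ) : Set (Eu d) :=
  {y | ∀ t : ℝ, 0 < t → t ≤ 1 / ((j : ℝ) + 1) →
    ENNReal.ofReal (1 / ((j : ℝ) + 1) * t ^ n) ≤ ν (ball y t)}

theorem LD_of_eventually {ν : Measure (Eu d)} {y : Eu d} {c : ℝ} (hc : 0 < c)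
    (h : ∀ᶠ t in 𝓝[>] (0 : ℝ), ENNReal.ofReal (c * t ^ n) ≤ ν (ball y t)) :
    ∃ j, y ∈ LD n ν j := by
  obtain ⟨ρ, hρ, H⟩ := (nhdsGT_basis (0 : ℝ)).eventually_iff.1 h
  obtain ⟨j, hj⟩ := exists_nat_one_div_lt (lt_min hc hρ)
  refine ⟨j, fun t ht htj => le_trans (ENNReal.ofReal_le_ofReal ?_)
    (H ⟨ht, htj.trans_lt (hj.trans_le (min_le_right _ _))⟩)⟩
  exact mul_le_mul_of_nonneg_right (hj.le.trans (min_le_left _ _)) (by positivity)

theorem LD_closure {ν : Measure (Eu d)} {j : ℕ} {y : Eu d} (hy : y ∈ closure (LD n ν j)) {t : ℝ}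
    (ht : 0 < t) (htj : t ≤ 1 / ((j : ℝ) + 1)) :
    ENNReal.ofReal (1 / ((j : ℝ) + 1) / 2 ^ n * t ^ n) ≤ ν (ball y t) := by
  obtain ⟨p, hp, hpy⟩ := Metric.mem_closure_iff.1 hy (t / 2) (by positivity)
  refine le_trans (le_of_eq ?_) ((hp (t / 2) (by positivity) (by linarith)).trans
    (measure_mono (ball_subset_ball' (by rw [dist_comm]; linarith))))
  congr 1
  rw [div_pow]; ring

theorem dens_step (ν : Measure (Eu d)) [IsLocallyFiniteMeasure ν] {T : Set (Eu d)}
    (hT : MeasurableSet T) :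
    ∀ᵐ y ∂ν, y ∈ T → (∃ j, y ∈ LD n ν j) → ∃ j, y ∈ LD n (ν.restrict T) j := by
  filter_upwards [Besicovitch.ae_tendsto_measure_inter_div_of_measurableSet ν hT]
    with y hy hyT ⟨j, hj⟩
  rw [indicator_of_mem hyT, Pi.one_apply] at hy
  have h1 : ∀ᶠ s in 𝓝[>] (0 : ℝ), (1 / 2 : ℝ≥0∞) < ν (T ∩ closedBall y s) / ν (closedBall y s) :=
    hy.eventually (lt_mem_nhds (by norm_num))
  obtain ⟨ρ, hρ, H⟩ := (nhdsGT_basis (0 : ℝ)).eventually_iff.1 h1
  have hj0 : (0 : ℝ) < 1 / ((j : ℝ) + 1) := by positivity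
  refine LD_of_eventually (c := 1 / ((j : ℝ) + 1) / 2 ^ n / 2) (by positivity) ?_
  filter_upwards [Ioo_mem_nhdsGT (lt_min hρ hj0)] with t ht
  have ht0 : 0 < t := ht.1
  have ht1 : t < ρ := ht.2.trans_le (min_le_left _ _)
  have ht2 : t < 1 / ((j : ℝ) + 1) := ht.2.trans_le (min_le_right _ _)
  have h2 := ENNReal.mul_le_of_le_div (H (x := t / 2) ⟨by positivity, by linarith⟩).le
  have h3 := (hj (t / 2) (by positivity) (by linarith)).trans
    (measure_mono ball_subset_closedBall)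
  rw [Measure.restrict_apply measurableSet_ball]
  refine le_trans ?_ (h2.trans (measure_mono fun p hp =>
    ⟨closedBall_subset_ball (by linarith) hp.2, hp.1⟩))
  refine le_trans (le_of_eq ?_) (mul_le_mul_right h3 _)
  rw [show (1 / 2 : ℝ≥0∞) = ENNReal.ofReal (1 / 2) by
    rw [ENNReal.ofReal_div_of_pos two_pos]; simp, ← ENNReal.ofReal_mul (by norm_num)]
  congr 1
  rw [div_pow]; ring

/-- **bounded Riesz transform and positive lower density give rectifiability** -/
theorem dens_rect (n d : ℕ) (hn : 1 ≤ n) (hnd : n ≤ d) (μ : Measure (Eu d))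
    [IsLocallyFiniteMeasure μ] (hb : RieszBounded n μ) :
    Rect n μ {x | 0 < liminf (fun r : ℝ => μ (ball x r) / ENNReal.ofReal (r ^ n)) (𝓝[>] 0)} := by
  obtain ⟨C₁, hb⟩ := hb
  set A : Set (Eu d) := {y | 0 < μ {y}} with hA
  have hAc : A.Countable :=
    Measure.countable_meas_pos_of_disjoint_iUnion (As := fun y : Eu d => {y})
      (fun y => measurableSet_singleton y) (fun y z h => disjoint_singleton.2 h)
  have hS : MeasurableSet Aᶜ := hAc.measurableSet.compl
  obtain ⟨C, hC, hgr⟩ := growth n d hn C₁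
  have hup : UpReg n C (μ.restrict Aᶜ) := by
    refine hgr μ hb _ hS fun y => ?_
    rw [Measure.restrict_apply (measurableSet_singleton y)]
    by_cases hy : y ∈ A
    · convert measure_empty (μ := μ)
      exact eq_empty_of_forall_notMem fun p hp => hp.2 (hp.1 ▸ hy)
    · exact measure_mono_null inter_subset_left (le_antisymm (not_lt.1 hy) bot_le)
  set μ₁ := μ.restrict Aᶜ with hμ₁
  have key : ∀ j i : ℕ, Rect n μ₁ (closure (LD n (μ₁.restrict (closure (LD n μ₁ j))) i)) := by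
    intro j i
    have hj0 : (0 : ℝ) < 1 / ((j : ℝ) + 1) := by positivity
    have hi0 : (0 : ℝ) < 1 / ((i : ℝ) + 1) := by positivity
    set r : ℝ := min (1 / ((j : ℝ) + 1)) (1 / ((i : ℝ) + 1)) with hr
    have hr0 : 0 < r := lt_min hj0 hi0
    refine rect_of_local hr0 fun z => rect_of_approx fun η hη => ?_
    obtain ⟨M, hM⟩ := dens_cover n d hn hnd (1 / ((j : ℝ) + 1) / 2 ^ n)
      (1 / ((i : ℝ) + 1) / 2 ^ n) C C₁ (η / r ^ n) (by positivity) (by positivity) hC
      (by positivity)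
    obtain ⟨g, hg, h⟩ := hM μ hb _ hS hup (closure (LD n μ₁ j))
      (closedBall z r ∩ closure (LD n (μ₁.restrict (closure (LD n μ₁ j))) i)) z r hr0
      ((isCompact_closedBall z r).inter_right isClosed_closure) inter_subset_left
      (fun y hy t ht htr => LD_closure hy ht (htr.trans (min_le_left _ _)))
      (fun y hy t ht htr => by
        have := LD_closure hy.2 ht (htr.trans (min_le_right _ _))
        rwa [Measure.restrict_apply measurableSet_ball] at this)
    refine ⟨M, g, hg, le_trans (measure_mono ?_) (h.trans (le_of_eq ?_))⟩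
    · rintro y ⟨⟨hy1, hy2⟩, hy3⟩
      exact ⟨⟨ball_subset_closedBall hy2, hy1⟩, fun h => hy3 (image_subset_range _ _ h)⟩
    · congr 1
      field_simp
  have h1 : Rect n μ₁ {y | ∃ j, y ∈ LD n μ₁ j} := by
    refine (Rect.iUnion fun j => Rect.iUnion (key j)).mono_ae ?_
    have h2 : ∀ᵐ y ∂μ₁, ∀ j, y ∈ closure (LD n μ₁ j) → (∃ j, y ∈ LD n μ₁ j) →
        ∃ i, y ∈ LD n (μ₁.restrict (closure (LD n μ₁ j))) i :=
      ae_all_iff.2 fun j => dens_step μ₁ isClosed_closure.measurableSet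
    filter_upwards [h2] with y hy ⟨j, hj⟩
    obtain ⟨i, hi⟩ := hy j (subset_closure hj) ⟨j, hj⟩
    exact mem_iUnion.2 ⟨j, mem_iUnion.2 ⟨i, subset_closure hi⟩⟩
  refine ((rect_countable hAc).union (h1.of_restrict hS)).mono_ae ?_
  filter_upwards [dens_step (n := n) μ hS] with y hy hyE
  by_cases hyA : y ∈ A
  · exact Or.inl hyA
  refine Or.inr ⟨hy hyA ?_, hyA⟩
  obtain ⟨c, hc0, hc1, hc2⟩ := ENNReal.lt_iff_exists_real_btwn.1 hyE
  refine LD_of_eventually (ENNReal.ofReal_pos.1 hc1) ?_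
  filter_upwards [eventually_lt_of_lt_liminf hc2] with t ht
  rw [ENNReal.ofReal_mul hc0]
  exact ENNReal.mul_le_of_le_div ht.le

end Vale.Agent.P120.MX

end
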